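import Vale.Agent.P141.H97.Dual

/-!
# All Hoelder tuples with `p₁, p₂, p₃ ≤ 6` and `r ≥ 6/5`
-/

namespace Vale.Agent.P141.H97

open MeasureTheory Set Filter Topology
open scoped ENNReal ComplexConjugate

theorem toReal_six : (6 : ℝ≥0∞).toReal = 6 := by norm_num

/-- the real exponents of a tuple -/
theorem exps {p₁ p₂ p₃ r : ℝ≥0∞} (h1 : p₁ ≤ 6) (h2 : p₂ ≤ 6) (h3 : p₃ ≤ 6) (hr : 6 / 5 ≤ r)
    (h : r⁻¹ = p₁⁻¹ + p₂⁻¹ + p₃⁻¹) :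
    (p₁ ≠ 0 ∧ p₂ ≠ 0 ∧ p₃ ≠ 0 ∧ r ≠ ∞) ∧
    (1 / 6 ≤ p₁.toReal⁻¹ ∧ 1 / 6 ≤ p₂.toReal⁻¹ ∧ 1 / 6 ≤ p₃.toReal⁻¹ ∧ r.toReal⁻¹ ≤ 5 / 6) ∧
    r.toReal⁻¹ = p₁.toReal⁻¹ + p₂.toReal⁻¹ + p₃.toReal⁻¹ := by
  have hr0 : r ≠ 0 := by
    rintro rfl
    have : (0 : ℝ≥0∞) < 6 / 5 := by
      apply ENNReal.div_pos <;> norm_num
    exact absurd hr (not_le.2 this)
  have hri : r⁻¹ ≠ ∞ := ENNReal.inv_ne_top.2 hr0
  rw [h] at hri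
  have hs := ENNReal.add_ne_top.1 hri
  have hs' := ENNReal.add_ne_top.1 hs.1
  have z1 : p₁ ≠ 0 := ENNReal.inv_ne_top.1 hs'.1
  have z2 : p₂ ≠ 0 := ENNReal.inv_ne_top.1 hs'.2
  have z3 : p₃ ≠ 0 := ENNReal.inv_ne_top.1 hs.2
  have t1 : p₁ ≠ ∞ := ne_top_of_le_ne_top (by norm_num) h1
  have t2 : p₂ ≠ ∞ := ne_top_of_le_ne_top (by norm_num) h2
  have t3 : p₃ ≠ ∞ := ne_top_of_le_ne_top (by norm_num) h3
  have hrt : r ≠ ∞ := by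
    rintro rfl
    rw [ENNReal.inv_top] at h
    have h4 : p₁⁻¹ + p₂⁻¹ + p₃⁻¹ = 0 := h.symm
    have h5 : p₃⁻¹ = 0 := (add_eq_zero.1 h4).2
    exact t3 (ENNReal.inv_eq_zero.1 h5)
  have key : ∀ {p : ℝ≥0∞}, p ≤ 6 → p ≠ 0 → 1 / 6 ≤ p.toReal⁻¹ := by
    intro p hp hp0
    have hpt : p ≠ ∞ := ne_top_of_le_ne_top (by norm_num) hp
    have h6 := ENNReal.toReal_mono (by norm_num) hp
    rw [toReal_six] at h6
    have h7 : 0 < p.toReal := ENNReal.toReal_pos hp0 hpt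
    rw [one_div]
    exact inv_anti₀ h7 h6
  refine ⟨⟨z1, z2, z3, hrt⟩, ⟨key h1 z1, key h2 z2, key h3 z3, ?_⟩, ?_⟩
  · have h8 := ENNReal.toReal_mono hrt hr
    have h9 : (6 / 5 : ℝ≥0∞).toReal = 6 / 5 := by
      rw [ENNReal.toReal_div]; norm_num
    rw [h9] at h8
    have h10 := inv_anti₀ (by norm_num : (0 : ℝ) < 6 / 5) h8
    calc r.toReal⁻¹ ≤ (6 / 5 : ℝ)⁻¹ := h10
      _ = 5 / 6 := by norm_num
  · have h11 := congrArg ENNReal.toReal h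
    rw [ENNReal.toReal_add (ENNReal.add_ne_top.2 ⟨hs'.1, hs'.2⟩) hs.2,
      ENNReal.toReal_add hs'.1 hs'.2, ENNReal.toReal_inv, ENNReal.toReal_inv, ENNReal.toReal_inv,
      ENNReal.toReal_inv] at h11
    exact h11

/-- **the bound at all tuples of the simplex** -/
theorem op_nice : ∃ C : ℝ, 0 ≤ C ∧ ∀ p₁ p₂ p₃ r : ℝ≥0∞, p₁ ≤ 6 → p₂ ≤ 6 → p₃ ≤ 6 → 6 / 5 ≤ r →
    r⁻¹ = p₁⁻¹ + p₂⁻¹ + p₃⁻¹ → ∀ f₁ f₂ f₃ : ℝ → ℂ, Nice f₁ → Nice f₂ → Nice f₃ →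
    ∀ ε R : ℝ, 0 < ε → ε < R →
      eLpNorm (TT ε R 1 2 3 f₁ f₂ f₃) r volume ≤
        ENNReal.ofReal (C * √(Real.log (R / ε))) * eLpNorm f₁ p₁ volume *
          eLpNorm f₂ p₂ volume * eLpNorm f₃ p₃ volume := by
  obtain ⟨C, hC0, hC⟩ := op_simp
  refine ⟨C, hC0, fun p₁ p₂ p₃ r h1 h2 h3 hr hsum f₁ f₂ f₃ k₁ k₂ k₃ ε R hε hR => ?_⟩
  obtain ⟨⟨z1, z2, z3, hrt⟩, ⟨b1, b2, b3, b0⟩, hs⟩ := exps h1 h2 h3 hr hsum
  have t1 : p₁ ≠ ∞ := ne_top_of_le_ne_top (by norm_num) h1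
  have t2 : p₂ ≠ ∞ := ne_top_of_le_ne_top (by norm_num) h2
  have t3 : p₃ ≠ ∞ := ne_top_of_le_ne_top (by norm_num) h3
  have one_le : ∀ {p : ℝ≥0∞}, p ≠ ∞ → 1 / 6 ≤ p.toReal⁻¹ → p.toReal⁻¹ ≤ 1 → 1 ≤ p := by
    intro p hp h6 hle
    have hpos : 0 < p.toReal := inv_pos.1 (by linarith)
    have h12 : 1 ≤ p.toReal := by
      have := inv_anti₀ (by linarith : (0:ℝ) < p.toReal⁻¹) hle
      simpa using this
    rw [← ENNReal.ofReal_toReal hp, ← ENNReal.ofReal_one]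
    exact ENNReal.ofReal_le_ofReal h12
  have o1 : 1 ≤ p₁ := one_le t1 b1 (by linarith)
  have o2 : 1 ≤ p₂ := one_le t2 b2 (by linarith)
  have o3 : 1 ≤ p₃ := one_le t3 b3 (by linarith)
  set d : Fin 4 → ℝ := ![1 - r.toReal⁻¹, p₁.toReal⁻¹, p₂.toReal⁻¹, p₃.toReal⁻¹] with hd
  have e0 : d 0 = 1 - r.toReal⁻¹ := rfl
  have e1 : d 1 = p₁.toReal⁻¹ := rfl
  have e2 : d 2 = p₂.toReal⁻¹ := rfl
  have e3 : d 3 = p₃.toReal⁻¹ := rfl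
  have hd6 : ∀ i, 1 / 6 ≤ d i := by
    intro i
    fin_cases i
    · show 1 / 6 ≤ 1 - r.toReal⁻¹
      linarith
    · exact b1
    · exact b2
    · exact b3
  have hd1 : ∑ i, d i = 1 := by
    rw [Fin.sum_univ_four, e0, e1, e2, e3]; linarith
  have hrr : ENNReal.ofReal (1 / (1 - d 0)) = r := by
    rw [e0, sub_sub_cancel, one_div, inv_inv, ENNReal.ofReal_toReal hrt]
  have hlim : ∀ᵐ x : ℝ, Tendsto (fun n => TT ε R 1 2 3 (cut n f₁) (cut n f₂) (cut n f₃) x) atTop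
      (𝓝 (TT ε R 1 2 3 f₁ f₂ f₃ x)) := ae_of_all _ fun x => TT_cut hε k₁ k₂ k₃ x
  obtain ⟨B₁, hB₁⟩ := k₁.bdd
  obtain ⟨B₂, hB₂⟩ := k₂.bdd
  obtain ⟨B₃, hB₃⟩ := k₃.bdd
  have c1 := fun n => cut_simp n k₁.meas hB₁
  have c2 := fun n => cut_simp n k₂.meas hB₂
  have c3 := fun n => cut_simp n k₃.meas hB₃
  refine (Lp.eLpNorm_lim_le_liminf_eLpNorm (fun n => (TT_meas (c1 n).nice (c2 n).nice
    (c3 n).nice).aestronglyMeasurable) _ hlim).trans ?_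
  refine liminf_le_of_le (by isBoundedDefault) fun b hb => ?_
  obtain ⟨n, hn⟩ := hb.exists
  refine hn.trans ?_
  have h := hC ε R hε hR d hd6 hd1 _ _ _ (c1 n) (c2 n) (c3 n)
  rw [hrr] at h
  refine h.trans ?_
  have hK : 0 ≤ C * √(Real.log (R / ε)) := by positivity
  have conv : ∀ {p : ℝ≥0∞} {f : ℝ → ℂ}, 1 ≤ p → p ≠ ∞ → Nice (cut n f) →
      ENNReal.ofReal ((NN (cut n f) (1 / p.toReal⁻¹)) ^ p.toReal⁻¹) ≤ eLpNorm f p volume := by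
    intro p f hp1 hpt hf
    rw [one_div, inv_inv, ← elp_NN (hf.memLp hp1 hpt) hp1 hpt]
    exact eLpNorm_mono fun x => cut_norm_le n f x
  have v1 := conv o1 t1 (c1 n).nice
  have v2 := conv o2 t2 (c2 n).nice
  have v3 := conv o3 t3 (c3 n).nice
  rw [← e1] at v1
  rw [← e2] at v2
  rw [← e3] at v3
  have x1 : 0 ≤ (NN (cut n f₁) (1 / d 1)) ^ (d 1) := Real.rpow_nonneg (NN_nonneg _ _) _
  have x2 : 0 ≤ (NN (cut n f₂) (1 / d 2)) ^ (d 2) := Real.rpow_nonneg (NN_nonneg _ _) _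
  calc ENNReal.ofReal (C * √(Real.log (R / ε)) * ((NN (cut n f₁) (1 / d 1)) ^ (d 1) *
          (NN (cut n f₂) (1 / d 2)) ^ (d 2) * (NN (cut n f₃) (1 / d 3)) ^ (d 3)))
      = ENNReal.ofReal (C * √(Real.log (R / ε))) * (ENNReal.ofReal
          ((NN (cut n f₁) (1 / d 1)) ^ (d 1)) * ENNReal.ofReal ((NN (cut n f₂) (1 / d 2)) ^ (d 2)) *
          ENNReal.ofReal ((NN (cut n f₃) (1 / d 3)) ^ (d 3))) := by
        rw [ENNReal.ofReal_mul hK, ENNReal.ofReal_mul (mul_nonneg x1 x2), ENNReal.ofReal_mul x1]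
    _ ≤ ENNReal.ofReal (C * √(Real.log (R / ε))) * (eLpNorm f₁ p₁ volume *
          eLpNorm f₂ p₂ volume * eLpNorm f₃ p₃ volume) := by gcongr
    _ = _ := by ring

end Vale.Agent.P141.H97
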