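import Vale.Agent.P141.H97.Lin

/-!
# The truncated bilinear Hilbert form at (3,3,3), from the triangular form
-/

namespace Vale.Agent.P141.H97

open MeasureTheory Set
open scoped ENNReal
open Vale.Agent.P075.R (kern full)

/-- norm of a localised ridge function, localised in the first variable -/
theorem nrm1 (κ l : ℝ) (hκ : κ ≠ 0) (J : Set ℝ) (hJ : MeasurableSet J) (len : ℝ) (hl : 0 ≤ len)
    (hv : volume J = ENNReal.ofReal len) (g : ℝ → ℂ) (hg : Measurable g) :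
    eLpNorm (fun p : ℝ × ℝ => g (κ * p.2 + l * p.1) * J.indicator 1 p.1) 3 volume
      = ENNReal.ofReal ((len / |κ|) ^ ((1 : ℝ) / 3)) * eLpNorm g 3 volume := by
  have h := nrm2 κ l hκ J hJ len hl hv g hg
  rw [← h]
  have hm : Measurable fun p : ℝ × ℝ => g (κ * p.1 + l * p.2) * J.indicator 1 p.2 :=
    (hg.comp ((measurable_const.mul measurable_fst).add (measurable_const.mul measurable_snd))).mul
      ((measurable_one.indicator hJ).comp measurable_snd)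
  have hs : MeasurePreserving (Prod.swap : ℝ × ℝ → ℝ × ℝ) volume volume :=
    Measure.measurePreserving_swap
  have key := eLpNorm_comp_measurePreserving (p := (3 : ℝ≥0∞)) (f := Prod.swap)
    (g := fun p : ℝ × ℝ => g (κ * p.1 + l * p.2) * J.indicator 1 p.2)
    (hm.aestronglyMeasurable (μ := volume)) hs
  rw [← key]
  rfl

/-- the integrand of the truncated bilinear Hilbert form with slopes `α₁, α₂, α₃`, in `(x, t)` -/
noncomputable def bk (ε R α₁ α₂ α₃ : ℝ) (g₁ g₂ g₃ : ℝ → ℂ) (p : ℝ × ℝ) : ℂ :=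
  if ε < |p.2| ∧ |p.2| < R then
    g₁ (p.1 - α₁ * p.2) * g₂ (p.1 - α₂ * p.2) * g₃ (p.1 - α₃ * p.2) / ((p.2 : ℝ) : ℂ)
  else 0

/-- moving the middle coordinate to the front preserves the measure -/
theorem mp_mid : MeasurePreserving (fun w : ℝ × ℝ × ℝ => ((w.2.1, w.1, w.2.2) : ℝ × ℝ × ℝ))
    volume volume := by
  have h1 : MeasurePreserving (MeasurableEquiv.prodAssoc (α := ℝ) (β := ℝ) (γ := ℝ)).symm
      (volume : Measure (ℝ × ℝ × ℝ)) (volume : Measure ((ℝ × ℝ) × ℝ)) :=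
    (volume_preserving_prodAssoc (α₁ := ℝ) (β₁ := ℝ) (γ₁ := ℝ)).symm
  have h2 : MeasurePreserving (Prod.map Prod.swap id : (ℝ × ℝ) × ℝ → (ℝ × ℝ) × ℝ)
      volume volume := Measure.measurePreserving_swap.prod (MeasurePreserving.id volume)
  have h3 : MeasurePreserving (MeasurableEquiv.prodAssoc (α := ℝ) (β := ℝ) (γ := ℝ))
      (volume : Measure ((ℝ × ℝ) × ℝ)) (volume : Measure (ℝ × ℝ × ℝ)) :=
    volume_preserving_prodAssoc
  exact (h3.comp (h2.comp h1))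

theorem mid_emb : MeasurableEmbedding
    (fun w : ℝ × ℝ × ℝ => ((w.2.1, w.1, w.2.2) : ℝ × ℝ × ℝ)) := by
  let e : (ℝ × ℝ × ℝ) ≃ᵐ (ℝ × ℝ × ℝ) :=
    { toFun := fun w => (w.2.1, w.1, w.2.2)
      invFun := fun w => (w.2.1, w.1, w.2.2)
      left_inv := fun w => rfl
      right_inv := fun w => rfl
      measurable_toFun := by
        show Measurable fun w : ℝ × ℝ × ℝ => ((w.2.1, w.1, w.2.2) : ℝ × ℝ × ℝ)
        fun_prop
      measurable_invFun := by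
        show Measurable fun w : ℝ × ℝ × ℝ => ((w.2.1, w.1, w.2.2) : ℝ × ℝ × ℝ)
        fun_prop }
  exact e.measurableEmbedding

theorem kern_eq_bk {ε R α₁ α₂ α₃ M N K : ℝ} (h12 : α₁ ≠ α₂) {g₁ g₂ g₃ : ℝ → ℂ}
    (hM : ∀ u, M < |u| → g₂ u = 0) (hN : 0 ≤ N)
    (hK : (M + |α₃ - α₂| * N) / |α₂ - α₁| ≤ K) (a b c : ℝ) :
    kern ε R (fun p => g₁ ((α₂ - α₁) * p.1 + (α₃ - α₁) * p.2) * (Icc 0 N).indicator 1 p.2)
      (fun p => g₂ ((α₁ - α₂) * p.2 + (α₃ - α₂) * p.1) * (Icc 0 N).indicator 1 p.1)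
      (fun p => g₃ ((α₂ - α₃) * p.2 + (α₁ - α₃) * p.1) * (Icc (-K) K).indicator 1 p.1) (a, b, c)
      = (Icc 0 N).indicator 1 b *
        bk ε R α₁ α₂ α₃ g₁ g₂ g₃ (α₂ * a + α₁ * c + α₃ * b, 1 * a + 1 * c + b) := by
  have hδ : 0 < |α₂ - α₁| := abs_pos.2 (sub_ne_zero.2 (Ne.symm h12))
  have ht : a + b + c = 1 * a + 1 * c + b := by ring
  simp only [kern, bk]
  rw [ht]
  by_cases hA : ε < |1 * a + 1 * c + b| ∧ |1 * a + 1 * c + b| < R
  swap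
  · rw [if_neg hA, if_neg hA, mul_zero]
  rw [if_pos hA, if_pos hA]
  by_cases hb : b ∈ Icc 0 N
  swap
  · rw [indicator_of_notMem hb]; simp
  rw [indicator_of_mem hb]
  have e1 : (α₂ - α₁) * a + (α₃ - α₁) * b
      = α₂ * a + α₁ * c + α₃ * b - α₁ * (1 * a + 1 * c + b) := by ring
  have e2 : (α₁ - α₂) * c + (α₃ - α₂) * b
      = α₂ * a + α₁ * c + α₃ * b - α₂ * (1 * a + 1 * c + b) := by ring
  have e3 : (α₂ - α₃) * a + (α₁ - α₃) * c
      = α₂ * a + α₁ * c + α₃ * b - α₃ * (1 * a + 1 * c + b) := by ring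
  by_cases hc : c ∈ Icc (-K) K
  · rw [indicator_of_mem hc, e1, e2, e3]
    simp only [Pi.one_apply, mul_one, one_mul]
  · have hz : g₂ ((α₁ - α₂) * c + (α₃ - α₂) * b) = 0 := by
      apply hM
      by_contra hcon
      push Not at hcon
      apply hc
      have h1 : |α₂ - α₁| * |c| ≤ M + |α₃ - α₂| * N := by
        have h2 : (α₂ - α₁) * c = (α₃ - α₂) * b - ((α₁ - α₂) * c + (α₃ - α₂) * b) := by ring
        have h3 : |(α₂ - α₁) * c| ≤ |(α₃ - α₂) * b| + |(α₁ - α₂) * c + (α₃ - α₂) * b| := by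
          rw [h2]; exact abs_sub _ _
        rw [abs_mul, abs_mul] at h3
        have h4 : |b| ≤ N := by rw [abs_of_nonneg hb.1]; exact hb.2
        have h5 : |α₃ - α₂| * |b| ≤ |α₃ - α₂| * N := mul_le_mul_of_nonneg_left h4 (abs_nonneg _)
        linarith
      have h6 : |c| ≤ K := by
        refine le_trans ?_ hK
        rw [le_div_iff₀ hδ]
        linarith
      exact abs_le.1 h6
    rw [← e2, hz]
    simp

/-- the bound for functions with compact support -/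
theorem bht_cs (α₁ α₂ α₃ : ℝ) (h12 : α₁ ≠ α₂) (h23 : α₂ ≠ α₃) :
    ∃ C : ℝ, 0 ≤ C ∧ ∀ g₁ g₂ g₃ : ℝ → ℂ, Measurable g₁ → Measurable g₂ → Measurable g₃ →
      MemLp g₁ 3 volume → MemLp g₂ 3 volume → MemLp g₃ 3 volume →
      (∃ M : ℝ, ∀ u, M < |u| → g₂ u = 0) → ∀ ε R : ℝ, 0 < ε → ε < R →
        ‖∫ p, bk ε R α₁ α₂ α₃ g₁ g₂ g₃ p‖ ≤ C * ((eLpNorm g₁ 3 volume).toReal *
          (eLpNorm g₂ 3 volume).toReal * (eLpNorm g₃ 3 volume).toReal) := by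
  obtain ⟨C₀, hC₀⟩ := full
  have hδ : 0 < |α₂ - α₁| := abs_pos.2 (sub_ne_zero.2 (Ne.symm h12))
  have hδ' : α₁ - α₂ ≠ 0 := sub_ne_zero.2 h12
  have hδ'' : α₂ - α₁ ≠ 0 := sub_ne_zero.2 (Ne.symm h12)
  have hγ : 0 < |α₂ - α₃| := abs_pos.2 (sub_ne_zero.2 h23)
  have hγ' : α₂ - α₃ ≠ 0 := sub_ne_zero.2 h23
  set ρ : ℝ := 2 * ((1 + |α₃ - α₂|) / |α₂ - α₁|) / |α₂ - α₃| with hρ
  have hρ0 : 0 ≤ ρ := by positivity
  refine ⟨|α₂ - α₁| * (|C₀| * ((1 / |α₂ - α₁|) ^ ((1 : ℝ) / 3) * (1 / |α₁ - α₂|) ^ ((1 : ℝ) / 3)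
    * ρ ^ ((1 : ℝ) / 3))), by positivity, ?_⟩
  intro g₁ g₂ g₃ m₁ m₂ m₃ l₁ l₂ l₃ hM ε R hε hR
  obtain ⟨M, hM⟩ := hM
  set N : ℝ := max M 1 with hN
  have hN1 : 1 ≤ N := le_max_right _ _
  have hN0 : 0 ≤ N := by linarith
  have hMN : M ≤ N := le_max_left _ _
  set K : ℝ := N * ((1 + |α₃ - α₂|) / |α₂ - α₁|) with hK
  have hK0 : 0 ≤ K := by positivity
  have hKK : (M + |α₃ - α₂| * N) / |α₂ - α₁| ≤ K := by
    rw [hK, ← mul_div_assoc]
    apply div_le_div_of_nonneg_right _ hδ.le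
    nlinarith [abs_nonneg (α₃ - α₂)]
  set G₀ : ℝ × ℝ → ℂ := fun p => g₁ ((α₂ - α₁) * p.1 + (α₃ - α₁) * p.2) *
    (Icc 0 N).indicator 1 p.2 with hG₀
  set G₁ : ℝ × ℝ → ℂ := fun p => g₂ ((α₁ - α₂) * p.2 + (α₃ - α₂) * p.1) *
    (Icc 0 N).indicator 1 p.1 with hG₁
  set G₂ : ℝ × ℝ → ℂ := fun p => g₃ ((α₂ - α₃) * p.2 + (α₁ - α₃) * p.1) *
    (Icc (-K) K).indicator 1 p.1 with hG₂
  have v1 : volume (Icc 0 N) = ENNReal.ofReal N := by rw [Real.volume_Icc, sub_zero]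
  have v2 : volume (Icc (-K) K) = ENNReal.ofReal (2 * K) := by
    rw [Real.volume_Icc]; congr 1; ring
  have n0 : eLpNorm G₀ 3 volume = ENNReal.ofReal ((N / |α₂ - α₁|) ^ ((1 : ℝ) / 3)) *
      eLpNorm g₁ 3 volume := nrm2 _ _ hδ'' _ measurableSet_Icc N hN0 v1 g₁ m₁
  have n1 : eLpNorm G₁ 3 volume = ENNReal.ofReal ((N / |α₁ - α₂|) ^ ((1 : ℝ) / 3)) *
      eLpNorm g₂ 3 volume := nrm1 _ _ hδ' _ measurableSet_Icc N hN0 v1 g₂ m₂
  have n2 : eLpNorm G₂ 3 volume = ENNReal.ofReal ((2 * K / |α₂ - α₃|) ^ ((1 : ℝ) / 3)) *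
      eLpNorm g₃ 3 volume := nrm1 _ _ hγ' _ measurableSet_Icc (2 * K) (by positivity) v2 g₃ m₃
  have hi1 : Measurable ((Icc 0 N).indicator (1 : ℝ → ℂ)) :=
    measurable_one.indicator measurableSet_Icc
  have hi2 : Measurable ((Icc (-K) K).indicator (1 : ℝ → ℂ)) :=
    measurable_one.indicator measurableSet_Icc
  have mG0 : Measurable G₀ :=
    (m₁.comp ((measurable_const.mul measurable_fst).add (measurable_const.mul measurable_snd))).mul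
      (hi1.comp measurable_snd)
  have mG1 : Measurable G₁ :=
    (m₂.comp ((measurable_const.mul measurable_snd).add (measurable_const.mul measurable_fst))).mul
      (hi1.comp measurable_fst)
  have mG2 : Measurable G₂ :=
    (m₃.comp ((measurable_const.mul measurable_snd).add (measurable_const.mul measurable_fst))).mul
      (hi2.comp measurable_fst)
  have L0 : MemLp G₀ 3 volume := ⟨mG0.aestronglyMeasurable, by
    rw [n0]; exact ENNReal.mul_lt_top ENNReal.ofReal_lt_top l₁.2⟩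
  have L1 : MemLp G₁ 3 volume := ⟨mG1.aestronglyMeasurable, by
    rw [n1]; exact ENNReal.mul_lt_top ENNReal.ofReal_lt_top l₂.2⟩
  have L2 : MemLp G₂ 3 volume := ⟨mG2.aestronglyMeasurable, by
    rw [n2]; exact ENNReal.mul_lt_top ENNReal.ofReal_lt_top l₃.2⟩
  obtain ⟨hI, hB⟩ := hC₀ G₀ G₁ G₂ L0 L1 L2 ε R hε hR
  have hform : ∫ x, kern ε R G₀ G₁ G₂ x
      = (N * |α₂ - α₁|⁻¹) • ∫ p, bk ε R α₁ α₂ α₃ g₁ g₂ g₃ p := by
    have h1 : ∫ x, kern ε R G₀ G₁ G₂ x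
        = ∫ w : ℝ × ℝ × ℝ, kern ε R G₀ G₁ G₂ (w.2.1, w.1, w.2.2) :=
      (mp_mid.integral_comp mid_emb _).symm
    have hI' : Integrable (fun w : ℝ × ℝ × ℝ => kern ε R G₀ G₁ G₂ (w.2.1, w.1, w.2.2)) volume :=
      (mp_mid.integrable_comp_emb mid_emb).2 hI
    rw [h1, Measure.volume_eq_prod, integral_prod _ hI']
    have h2 : ∀ b : ℝ, ∫ q : ℝ × ℝ, kern ε R G₀ G₁ G₂ (q.1, b, q.2)
        = (Icc 0 N).indicator (fun _ => |α₂ - α₁|⁻¹ • ∫ p, bk ε R α₁ α₂ α₃ g₁ g₂ g₃ p) b := by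
      intro b
      have h3 : ∀ q : ℝ × ℝ, kern ε R G₀ G₁ G₂ (q.1, b, q.2) = (Icc 0 N).indicator 1 b *
          bk ε R α₁ α₂ α₃ g₁ g₂ g₃ (α₂ * q.1 + α₁ * q.2 + α₃ * b, 1 * q.1 + 1 * q.2 + b) :=
        fun q => kern_eq_bk h12 hM hN0 hKK q.1 b q.2
      simp only [h3]
      rw [integral_const_mul, lin2 α₂ α₁ 1 1 (by simpa using hδ'') (α₃ * b) b]
      by_cases hb : b ∈ Icc 0 N
      · rw [indicator_of_mem hb, indicator_of_mem hb]
        simp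
      · rw [indicator_of_notMem hb, indicator_of_notMem hb, zero_mul]
    simp only [h2]
    rw [integral_indicator measurableSet_Icc, setIntegral_const, measureReal_def, v1,
      ENNReal.toReal_ofReal hN0, smul_smul]
  rw [hform, norm_smul, n0, n1, n2, ENNReal.toReal_mul, ENNReal.toReal_mul, ENNReal.toReal_mul,
    ENNReal.toReal_ofReal (by positivity), ENNReal.toReal_ofReal (by positivity),
    ENNReal.toReal_ofReal (by positivity), Real.norm_of_nonneg (by positivity)] at hB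
  set X := ‖∫ p, bk ε R α₁ α₂ α₃ g₁ g₂ g₃ p‖ with hX
  set a₁ := (eLpNorm g₁ 3 volume).toReal
  set a₂ := (eLpNorm g₂ 3 volume).toReal
  set a₃ := (eLpNorm g₃ 3 volume).toReal
  have ha1 : 0 ≤ a₁ := ENNReal.toReal_nonneg
  have ha2 : 0 ≤ a₂ := ENNReal.toReal_nonneg
  have ha3 : 0 ≤ a₃ := ENNReal.toReal_nonneg
  set ν : ℝ := N ^ ((1 : ℝ) / 3) with hν
  have hν3 : ν ^ 3 = N := by
    rw [hν, ← Real.rpow_natCast, ← Real.rpow_mul hN0]; norm_num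
  have e1 : (N / |α₂ - α₁|) ^ ((1 : ℝ) / 3) = ν * (1 / |α₂ - α₁|) ^ ((1 : ℝ) / 3) := by
    rw [hν, ← Real.mul_rpow hN0 (by positivity), mul_one_div]
  have e2 : (N / |α₁ - α₂|) ^ ((1 : ℝ) / 3) = ν * (1 / |α₁ - α₂|) ^ ((1 : ℝ) / 3) := by
    rw [hν, ← Real.mul_rpow hN0 (by positivity), mul_one_div]
  have e3 : (2 * K / |α₂ - α₃|) ^ ((1 : ℝ) / 3) = ν * ρ ^ ((1 : ℝ) / 3) := by
    rw [hν, ← Real.mul_rpow hN0 (by positivity)]
    congr 1
    rw [hK, hρ]; ring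
  rw [e1, e2, e3] at hB
  set d₁ := (1 / |α₂ - α₁|) ^ ((1 : ℝ) / 3)
  set d₂ := (1 / |α₁ - α₂|) ^ ((1 : ℝ) / 3)
  set d₃ := ρ ^ ((1 : ℝ) / 3)
  have hd1 : 0 ≤ d₁ := by positivity
  have hd2 : 0 ≤ d₂ := by positivity
  have hd3 : 0 ≤ d₃ := by positivity
  have hNpos : 0 < N := by linarith
  have h5 : N * (|α₂ - α₁|⁻¹ * X) ≤ N * (|C₀| * (d₁ * d₂ * d₃ * (a₁ * a₂ * a₃))) := by
    calc N * (|α₂ - α₁|⁻¹ * X) = N * |α₂ - α₁|⁻¹ * X := by ring
      _ ≤ C₀ * (ν * d₁ * a₁ * (ν * d₂ * a₂) * (ν * d₃ * a₃)) := hB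
      _ ≤ |C₀| * (ν * d₁ * a₁ * (ν * d₂ * a₂) * (ν * d₃ * a₃)) := by
          apply mul_le_mul_of_nonneg_right (le_abs_self _)
          have : 0 ≤ ν := by positivity
          positivity
      _ = ν ^ 3 * (|C₀| * (d₁ * d₂ * d₃ * (a₁ * a₂ * a₃))) := by ring
      _ = _ := by rw [hν3]
  have h6 := le_of_mul_le_mul_left h5 hNpos
  have h7 : X ≤ |α₂ - α₁| * (|C₀| * (d₁ * d₂ * d₃ * (a₁ * a₂ * a₃))) := by
    have := mul_le_mul_of_nonneg_left h6 hδ.le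
    rwa [← mul_assoc, mul_inv_cancel₀ hδ.ne', one_mul] at this
  calc X ≤ _ := h7
    _ = _ := by ring

end Vale.Agent.P141.H97
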