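import Vale.Agent.P141.H97.Sqrt

/-!
# The quadrilinear form at the four corners (2,6,6,6), ..., (6,6,6,2)
-/

namespace Vale.Agent.P141.H97

open MeasureTheory Set Filter Topology
open scoped ENNReal ComplexConjugate SchwartzMap

/-- integrand of the quadrilinear form with four slopes -/
noncomputable def q4 (ε R b₀ b₁ b₂ b₃ : ℝ) (f₀ f₁ f₂ f₃ : ℝ → ℂ) (p : ℝ × ℝ) : ℂ :=
  uu ε R p.2 * (f₀ (p.1 - b₀ * p.2) * (f₁ (p.1 - b₁ * p.2) *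
    (f₂ (p.1 - b₂ * p.2) * f₃ (p.1 - b₃ * p.2))))

/-- the quadrilinear form -/
noncomputable def Q4 (ε R b₀ b₁ b₂ b₃ : ℝ) (f₀ f₁ f₂ f₃ : ℝ → ℂ) : ℂ :=
  ∫ p, q4 ε R b₀ b₁ b₂ b₃ f₀ f₁ f₂ f₃ p

variable {ε R b₀ b₁ b₂ b₃ : ℝ} {f₀ f₁ f₂ f₃ : ℝ → ℂ}

theorem q4_meas (h₀ : Measurable f₀) (h₁ : Measurable f₁) (h₂ : Measurable f₂)
    (h₃ : Measurable f₃) : Measurable (q4 ε R b₀ b₁ b₂ b₃ f₀ f₁ f₂ f₃) := by
  have m : ∀ α : ℝ, Measurable fun p : ℝ × ℝ => p.1 - α * p.2 := fun α =>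
    measurable_fst.sub (measurable_const.mul measurable_snd)
  exact ((uu_meas ε R).comp measurable_snd).mul ((h₀.comp (m b₀)).mul ((h₁.comp (m b₁)).mul
    ((h₂.comp (m b₂)).mul (h₃.comp (m b₃)))))

theorem q4_int (hε : 0 < ε) (h₀ : Nice f₀) (h₁ : Nice f₁) (h₂ : Nice f₂) (h₃ : Nice f₃) :
    Integrable (q4 ε R b₀ b₁ b₂ b₃ f₀ f₁ f₂ f₃) volume := by
  obtain ⟨B₁, hB₁⟩ := h₁.bdd
  obtain ⟨B₂, hB₂⟩ := h₂.bdd
  obtain ⟨B₃, hB₃⟩ := h₃.bdd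
  have hB₁0 : 0 ≤ B₁ := (norm_nonneg _).trans (hB₁ 0)
  have hB₂0 : 0 ≤ B₂ := (norm_nonneg _).trans (hB₂ 0)
  have hB₃0 : 0 ≤ B₃ := (norm_nonneg _).trans (hB₃ 0)
  have hψ : Integrable (fun t => (B₁ * (B₂ * B₃)) * av ε R t) volume := (av_int hε).const_mul _
  have key := int_shift (ν := (volume : Measure ℝ)) h₀ (s := fun t => b₀ * t)
    (measurable_const.mul measurable_id) hψ (measurable_const.mul (av_meas ε R))
  rw [← Measure.volume_eq_prod] at key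
  refine key.mono' (q4_meas h₀.meas h₁.meas h₂.meas h₃.meas).aestronglyMeasurable
    (ae_of_all _ fun p => ?_)
  unfold q4
  rw [norm_mul, norm_mul, norm_mul, norm_mul, uu_norm]
  have a1 := av_nonneg ε R p.2
  have c1 := hB₁ (p.1 - b₁ * p.2)
  have c2 := hB₂ (p.1 - b₂ * p.2)
  have c3 := hB₃ (p.1 - b₃ * p.2)
  calc av ε R p.2 * (‖f₀ (p.1 - b₀ * p.2)‖ * (‖f₁ (p.1 - b₁ * p.2)‖ *
        (‖f₂ (p.1 - b₂ * p.2)‖ * ‖f₃ (p.1 - b₃ * p.2)‖)))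
      ≤ av ε R p.2 * (‖f₀ (p.1 - b₀ * p.2)‖ * (B₁ * (B₂ * B₃))) := by gcongr
    _ = _ := by ring

/-- the shear `(x, t) ↦ (x + c t, t)` preserves the measure -/
theorem cshear (c : ℝ) : MeasurePreserving (fun p : ℝ × ℝ => (p.1 + c * p.2, p.2))
    volume volume := by
  have h1 : MeasurePreserving (fun p : ℝ × ℝ => (p.1, p.2 + c * p.1)) volume volume := by
    have := (MeasurePreserving.id (volume : Measure ℝ)).skew_product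
      (μc := (volume : Measure ℝ)) (μd := (volume : Measure ℝ))
      (g := fun a y => y + c * a) (by fun_prop) (ae_of_all _ fun a =>
        (measurePreserving_add_right (volume : Measure ℝ) (c * a)).map_eq)
    exact this
  have hs : MeasurePreserving (Prod.swap : ℝ × ℝ → ℝ × ℝ) volume volume :=
    Measure.measurePreserving_swap
  exact hs.comp (h1.comp hs)

theorem cshear_emb (c : ℝ) : MeasurableEmbedding (fun p : ℝ × ℝ => (p.1 + c * p.2, p.2)) := by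
  let e : ℝ × ℝ ≃ᵐ ℝ × ℝ :=
    { toFun := fun p => (p.1 + c * p.2, p.2)
      invFun := fun p => (p.1 - c * p.2, p.2)
      left_inv := fun p => by ext <;> simp
      right_inv := fun p => by ext <;> simp
      measurable_toFun := by
        show Measurable fun p : ℝ × ℝ => (p.1 + c * p.2, p.2)
        fun_prop
      measurable_invFun := by
        show Measurable fun p : ℝ × ℝ => (p.1 - c * p.2, p.2)
        fun_prop }
  exact e.measurableEmbedding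

theorem Q4_shift (c : ℝ) : Q4 ε R b₀ b₁ b₂ b₃ f₀ f₁ f₂ f₃
    = Q4 ε R (b₀ - c) (b₁ - c) (b₂ - c) (b₃ - c) f₀ f₁ f₂ f₃ := by
  unfold Q4
  rw [← (cshear c).integral_comp (cshear_emb c)]
  congr 1
  funext p
  unfold q4
  have e : ∀ b : ℝ, p.1 + c * p.2 - b * p.2 = p.1 - (b - c) * p.2 := fun b => by ring
  simp only [e]

theorem Q4_01 : Q4 ε R b₀ b₁ b₂ b₃ f₀ f₁ f₂ f₃ = Q4 ε R b₁ b₀ b₂ b₃ f₁ f₀ f₂ f₃ := by
  unfold Q4; congr 1; funext p; unfold q4; ring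

theorem Q4_02 : Q4 ε R b₀ b₁ b₂ b₃ f₀ f₁ f₂ f₃ = Q4 ε R b₂ b₁ b₀ b₃ f₂ f₁ f₀ f₃ := by
  unfold Q4; congr 1; funext p; unfold q4; ring

theorem Q4_03 : Q4 ε R b₀ b₁ b₂ b₃ f₀ f₁ f₂ f₃ = Q4 ε R b₃ b₁ b₂ b₀ f₃ f₁ f₂ f₀ := by
  unfold Q4; congr 1; funext p; unfold q4; ring

/-- the form is the pairing with the operator -/
theorem Q4_pair (hε : 0 < ε) (h₀ : Nice f₀) (h₁ : Nice f₁) (h₂ : Nice f₂) (h₃ : Nice f₃) :
    Q4 ε R 0 b₁ b₂ b₃ f₀ f₁ f₂ f₃ = ∫ x, f₀ x * TT ε R b₁ b₂ b₃ f₁ f₂ f₃ x := by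
  have hI := q4_int (R := R) (b₀ := 0) (b₁ := b₁) (b₂ := b₂) (b₃ := b₃) hε h₀ h₁ h₂ h₃
  unfold Q4
  rw [Measure.volume_eq_prod] at hI ⊢
  rw [integral_prod _ hI]
  congr 1
  funext x
  unfold TT
  rw [← integral_const_mul]
  congr 1
  funext t
  unfold q4 ph FF
  simp only [zero_mul, sub_zero]
  ring

theorem holder221 : ENNReal.HolderTriple 2 2 1 := ⟨by
  rw [← ENNReal.toReal_eq_toReal_iff' (by simp) (by simp)]
  rw [ENNReal.toReal_add (by simp) (by simp)]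
  norm_num⟩

/-- one corner, arbitrary slopes -/
theorem corner (b₁ b₂ b₃ : ℝ) (h12 : b₁ ≠ b₂) (h23 : b₂ ≠ b₃) :
    ∃ C : ℝ, 0 ≤ C ∧ ∀ f₀ f₁ f₂ f₃ : ℝ → ℂ, Nice f₀ → Nice f₁ → Nice f₂ → Nice f₃ →
      ∀ ε R : ℝ, 0 < ε → ε < R →
        ‖Q4 ε R 0 b₁ b₂ b₃ f₀ f₁ f₂ f₃‖ₑ ≤
          ENNReal.ofReal (C * √(Real.log (R / ε))) * eLpNorm f₀ 2 volume *
            eLpNorm f₁ 6 volume * eLpNorm f₂ 6 volume * eLpNorm f₃ 6 volume := by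
  obtain ⟨C, hC0, hC⟩ := main_norm b₁ b₂ b₃ h12 h23
  refine ⟨C, hC0, fun f₀ f₁ f₂ f₃ h₀ h₁ h₂ h₃ ε R hε hR => ?_⟩
  have := holder221
  rw [Q4_pair hε h₀ h₁ h₂ h₃]
  have hm := TT_meas (ε := ε) (R := R) (α₁ := b₁) (α₂ := b₂) (α₃ := b₃) h₁ h₂ h₃
  refine (enorm_integral_le_lintegral_enorm _).trans ?_
  have h5 := eLpNorm_smul_le_mul_eLpNorm (p := 2) (q := 2) (r := 1) (μ := volume)
    (f := TT ε R b₁ b₂ b₃ f₁ f₂ f₃) (φ := f₀) hm.aestronglyMeasurable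
    h₀.meas.aestronglyMeasurable
  rw [eLpNorm_one_eq_lintegral_enorm] at h5
  refine h5.trans ?_
  have h6 := hC f₁ f₂ f₃ h₁ h₂ h₃ ε R hε hR
  calc eLpNorm f₀ 2 volume * eLpNorm (TT ε R b₁ b₂ b₃ f₁ f₂ f₃) 2 volume
      ≤ eLpNorm f₀ 2 volume * (ENNReal.ofReal (C * √(Real.log (R / ε))) *
        eLpNorm f₁ 6 volume * eLpNorm f₂ 6 volume * eLpNorm f₃ 6 volume) := by gcongr
    _ = _ := by ring

end Vale.Agent.P141.H97
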