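import Vale.Agent.P141.H97.Nice

/-!
# Auxiliary integrals: `dt/|t|`, the correlation `J`
-/

namespace Vale.Agent.P141.H97

open MeasureTheory Set Filter Topology
open scoped ENNReal ComplexConjugate

/-- `1_{a<|t|<b} / |t|` -/
noncomputable def av (a b t : ℝ) : ℝ := {t : ℝ | a < |t| ∧ |t| < b}.indicator (fun t => |t|⁻¹) t

theorem av_nonneg (a b t : ℝ) : 0 ≤ av a b t := indicator_nonneg (fun _ _ => by positivity) _

theorem av_meas (a b : ℝ) : Measurable (av a b) :=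
  measurable_abs.inv.indicator (setA_meas a b)

theorem av_int {a b : ℝ} (ha : 0 < a) : Integrable (av a b) volume := by
  have h : Integrable ((Ioo (-b) b).indicator fun _ : ℝ => a⁻¹) volume :=
    (integrable_indicator_iff measurableSet_Ioo).2
      (integrableOn_const (by rw [Real.volume_Ioo]; exact ENNReal.ofReal_ne_top))
  refine h.mono' (av_meas a b).aestronglyMeasurable (ae_of_all _ fun t => ?_)
  rw [Real.norm_of_nonneg (av_nonneg _ _ _)]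
  unfold av
  by_cases ht : t ∈ {t : ℝ | a < |t| ∧ |t| < b}
  · rw [indicator_of_mem ht, indicator_of_mem (setA_sub a b ht)]
    exact inv_anti₀ ha ht.1.le
  · rw [indicator_of_notMem ht]
    exact indicator_nonneg (fun _ _ => by positivity) _

theorem av_integral {a b : ℝ} (ha : 0 < a) (hab : a < b) :
    ∫ t, av a b t = 2 * Real.log (b / a) := by
  have h1 : ∀ t, av a b t = (Ioo a b).indicator (fun t => t⁻¹) |t| := by
    intro t
    unfold av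
    by_cases ht : t ∈ {t : ℝ | a < |t| ∧ |t| < b}
    · rw [indicator_of_mem ht, indicator_of_mem (show |t| ∈ Ioo a b from ht)]
    · rw [indicator_of_notMem ht, indicator_of_notMem (show |t| ∉ Ioo a b from ht)]
  simp only [h1]
  rw [integral_comp_abs (f := (Ioo a b).indicator fun t => t⁻¹)]
  congr 1
  rw [setIntegral_indicator measurableSet_Ioo]
  have h2 : Ioi (0 : ℝ) ∩ Ioo a b = Ioo a b := by
    ext t; simp only [mem_inter_iff, mem_Ioi, mem_Ioo]; constructor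
    · exact fun h => h.2
    · exact fun h => ⟨ha.trans h.1, h⟩
  rw [h2, ← integral_Ioc_eq_integral_Ioo, ← intervalIntegral.integral_of_le hab.le,
    integral_inv_of_pos ha (ha.trans hab)]

section

variable (α₁ α₂ α₃ : ℝ) (f₁ f₂ f₃ : ℝ → ℂ)

/-- the product `f₁(x - α₁ t) f₂(x - α₂ t) f₃(x - α₃ t)` -/
noncomputable def FF (x t : ℝ) : ℂ := f₁ (x - α₁ * t) * f₂ (x - α₂ * t) * f₃ (x - α₃ * t)

/-- the correlation -/
noncomputable def JJ (q : ℝ × ℝ) : ℂ :=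
  ∫ x, FF α₁ α₂ α₃ f₁ f₂ f₃ x q.1 * conj (FF α₁ α₂ α₃ f₁ f₂ f₃ x q.2)

/-- `∏ ‖f_i‖₆²` -/
noncomputable def PP : ℝ := ((eLpNorm f₁ 6 volume).toReal * (eLpNorm f₂ 6 volume).toReal *
  (eLpNorm f₃ 6 volume).toReal) ^ 2

theorem PP_nonneg : 0 ≤ PP f₁ f₂ f₃ := sq_nonneg _

variable {α₁ α₂ α₃ f₁ f₂ f₃}

theorem FF_meas (h₁ : Measurable f₁) (h₂ : Measurable f₂) (h₃ : Measurable f₃) :
    Measurable fun p : ℝ × ℝ => FF α₁ α₂ α₃ f₁ f₂ f₃ p.1 p.2 := by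
  have m : ∀ α : ℝ, Measurable fun p : ℝ × ℝ => p.1 - α * p.2 := fun α =>
    measurable_fst.sub (measurable_const.mul measurable_snd)
  exact ((h₁.comp (m α₁)).mul (h₂.comp (m α₂))).mul (h₃.comp (m α₃))

theorem FF_mul (x t h : ℝ) : FF α₁ α₂ α₃ f₁ f₂ f₃ x t * conj (FF α₁ α₂ α₃ f₁ f₂ f₃ x (t + h))
    = gh f₁ (α₁ * h) (x - α₁ * t) * gh f₂ (α₂ * h) (x - α₂ * t) * gh f₃ (α₃ * h) (x - α₃ * t) := by
  have e : ∀ α : ℝ, x - α * (t + h) = x - α * t - α * h := fun α => by ring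
  simp only [FF, gh, map_mul, e]
  ring

theorem JJ_conj (q : ℝ × ℝ) : JJ α₁ α₂ α₃ f₁ f₂ f₃ q.swap = conj (JJ α₁ α₂ α₃ f₁ f₂ f₃ q) := by
  unfold JJ
  rw [← integral_conj]
  congr 1
  funext x
  simp only [Prod.fst_swap, Prod.snd_swap, map_mul, RCLike.conj_conj]
  rw [mul_comm]

theorem JJ_eq (t h : ℝ) : JJ α₁ α₂ α₃ f₁ f₂ f₃ (t, t + h)
    = ∫ x, gh f₁ (α₁ * h) (x - α₁ * t) * gh f₂ (α₂ * h) (x - α₂ * t) *
      gh f₃ (α₃ * h) (x - α₃ * t) := by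
  unfold JJ
  congr 1
  funext x
  exact FF_mul x t h

theorem gh3_le (h₁ : Nice f₁) (h₂ : Nice f₂) (h₃ : Nice f₃) (s₁ s₂ s₃ : ℝ) :
    (eLpNorm (gh f₁ s₁) 3 volume).toReal * (eLpNorm (gh f₂ s₂) 3 volume).toReal *
      (eLpNorm (gh f₃ s₃) 3 volume).toReal ≤ PP f₁ f₂ f₃ := by
  have key : ∀ {f : ℝ → ℂ}, Nice f → ∀ s, (eLpNorm (gh f s) 3 volume).toReal ≤
      (eLpNorm f 6 volume).toReal ^ 2 := by
    intro f hf s
    have hfin : eLpNorm f 6 volume ≠ ∞ := (hf.memLp (p := 6) (by norm_num) (by norm_num)).2.ne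
    have := ENNReal.toReal_mono (ENNReal.mul_ne_top hfin hfin) (gh_norm hf.meas s)
    rw [ENNReal.toReal_mul] at this
    rwa [pow_two]
  have k1 := key h₁ s₁
  have k2 := key h₂ s₂
  have k3 := key h₃ s₃
  calc _ ≤ (eLpNorm f₁ 6 volume).toReal ^ 2 * (eLpNorm f₂ 6 volume).toReal ^ 2 *
        (eLpNorm f₃ 6 volume).toReal ^ 2 := by gcongr
    _ = _ := by unfold PP; ring

theorem JJ_le (h₁ : Nice f₁) (h₂ : Nice f₂) (h₃ : Nice f₃) (q : ℝ × ℝ) :
    ‖JJ α₁ α₂ α₃ f₁ f₂ f₃ q‖ ≤ PP f₁ f₂ f₃ := by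
  obtain ⟨t, t'⟩ := q
  have e : t' = t + (t' - t) := by ring
  rw [e, JJ_eq]
  set h := t' - t
  refine (norm_integral_le_lintegral_norm _).trans ?_
  have hH := holder3 (h₁.gh (α₁ * h)).meas (h₂.gh (α₂ * h)).meas (h₃.gh (α₃ * h)).meas
    (α₁ * t) (α₂ * t) (α₃ * t)
  have f1 := ((h₁.gh (α₁ * h)).memLp (p := 3) (by norm_num) (by norm_num)).2.ne
  have f2 := ((h₂.gh (α₂ * h)).memLp (p := 3) (by norm_num) (by norm_num)).2.ne
  have f3 := ((h₃.gh (α₃ * h)).memLp (p := 3) (by norm_num) (by norm_num)).2.ne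
  have h4 := ENNReal.toReal_mono (ENNReal.mul_ne_top f1 (ENNReal.mul_ne_top f2 f3)) hH
  simp only [ofReal_norm_eq_enorm]
  refine h4.trans ?_
  rw [ENNReal.toReal_mul, ENNReal.toReal_mul, ← mul_assoc]
  exact gh3_le h₁ h₂ h₃ _ _ _

end

end Vale.Agent.P141.H97
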