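import Vale.Agent.P141.H97.Tuples

/-!
# From the form to the operator
-/

namespace Vale.Agent.P141.H97

open MeasureTheory Set Filter Topology
open scoped ENNReal ComplexConjugate

/-- cut at height `1/(n+1)` and at distance `n` -/
noncomputable def cut (n : ℕ) (f : ℝ → ℂ) : ℝ → ℂ :=
  {x : ℝ | |x| ≤ n ∧ (1 : ℝ) / (n + 1) ≤ ‖f x‖}.indicator f

theorem cut_set (n : ℕ) {f : ℝ → ℂ} (hf : Measurable f) :
    MeasurableSet {x : ℝ | |x| ≤ n ∧ (1 : ℝ) / (n + 1) ≤ ‖f x‖} :=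
  (measurableSet_le measurable_abs measurable_const).inter
    (measurableSet_le measurable_const hf.norm)

theorem cut_simp (n : ℕ) {f : ℝ → ℂ} (hf : Measurable f) {B : ℝ} (hB : ∀ x, ‖f x‖ ≤ B) :
    Simp (cut n f) := by
  refine ⟨hf.indicator (cut_set n hf), 1 / ((n : ℝ) + 1), B, n, by positivity, fun x => ?_⟩
  by_cases hx : x ∈ {x : ℝ | |x| ≤ n ∧ (1 : ℝ) / (n + 1) ≤ ‖f x‖}
  · right
    rw [cut, indicator_of_mem hx]
    exact ⟨hx.2, hB x, hx.1⟩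
  · left
    rw [cut, indicator_of_notMem hx]

theorem cut_norm_le (n : ℕ) (f : ℝ → ℂ) (x : ℝ) : ‖cut n f x‖ ≤ ‖f x‖ :=
  norm_indicator_le_norm_self _ _

theorem cut_tendsto (f : ℝ → ℂ) (x : ℝ) :
    ∀ᶠ n : ℕ in atTop, cut n f x = f x := by
  by_cases h0 : f x = 0
  · exact Eventually.of_forall fun n => by
      by_cases hx : x ∈ {x : ℝ | |x| ≤ n ∧ (1 : ℝ) / (n + 1) ≤ ‖f x‖}
      · rw [cut, indicator_of_mem hx]
      · rw [cut, indicator_of_notMem hx, h0]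
  · obtain ⟨m, hm⟩ := exists_nat_ge |x|
    have hpos : 0 < ‖f x‖ := norm_pos_iff.2 h0
    obtain ⟨k, hk⟩ := exists_nat_one_div_lt hpos
    filter_upwards [eventually_ge_atTop (max m k)] with n hn
    have h1 : (m : ℝ) ≤ n := by exact_mod_cast (le_max_left m k).trans hn
    have h2 : (k : ℝ) ≤ n := by exact_mod_cast (le_max_right m k).trans hn
    have h3 : (1 : ℝ) / (n + 1) ≤ 1 / (k + 1) := by
      apply one_div_le_one_div_of_le (by positivity); linarith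
    rw [cut, indicator_of_mem]
    exact ⟨hm.trans h1, h3.trans hk.le⟩

variable {ε R : ℝ}

theorem TT_bdd {α₁ α₂ α₃ : ℝ} (hε : 0 < ε) {f₁ f₂ f₃ : ℝ → ℂ} (h₁ : Nice f₁) (h₂ : Nice f₂)
    (h₃ : Nice f₃) : ∃ B, ∀ x, ‖TT ε R α₁ α₂ α₃ f₁ f₂ f₃ x‖ ≤ B := by
  obtain ⟨B₁, hB₁⟩ := h₁.bdd
  obtain ⟨B₂, hB₂⟩ := h₂.bdd
  obtain ⟨B₃, hB₃⟩ := h₃.bdd
  have hB₁0 : 0 ≤ B₁ := (norm_nonneg _).trans (hB₁ 0)
  have hB₂0 : 0 ≤ B₂ := (norm_nonneg _).trans (hB₂ 0)
  have hB₃0 : 0 ≤ B₃ := (norm_nonneg _).trans (hB₃ 0)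
  refine ⟨∫ t, av ε R t * (B₁ * B₂ * B₃), fun x => ?_⟩
  refine norm_integral_le_of_norm_le ((av_int hε).mul_const _) (ae_of_all _ fun t => ?_)
  unfold ph FF
  rw [norm_mul, uu_norm, norm_mul, norm_mul]
  have a1 := av_nonneg ε R t
  have c1 := hB₁ (x - α₁ * t)
  have c2 := hB₂ (x - α₂ * t)
  have c3 := hB₃ (x - α₃ * t)
  gcongr

/-- the dual bound for functions of the class `Simp` -/
theorem dual {d₀ : ℝ} (hd0 : 0 < d₀) (hd1 : d₀ < 1) {g : ℝ → ℂ} (hg : Measurable g) {B : ℝ}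
    (hB : ∀ x, ‖g x‖ ≤ B) {A : ℝ} (hA : 0 ≤ A)
    (H : ∀ f : ℝ → ℂ, Simp f → ‖∫ x, f x * g x‖ ≤ A * (NN f (1 / d₀)) ^ d₀) :
    eLpNorm g (ENNReal.ofReal (1 / (1 - d₀))) volume ≤ ENNReal.ofReal A := by
  set r : ℝ := 1 / (1 - d₀) with hr
  have h1d : 0 < 1 - d₀ := by linarith
  have hr0 : 0 < r := by positivity
  have hr1 : 1 < r := by rw [hr, lt_div_iff₀ h1d]; linarith
  have hlim : ∀ᵐ x : ℝ, Tendsto (fun n => cut n g x) atTop (𝓝 (g x)) :=
    ae_of_all _ fun x => tendsto_const_nhds.congr' ((cut_tendsto g x).mono fun _ h => h.symm)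
  refine (Lp.eLpNorm_lim_le_liminf_eLpNorm
    (fun n => (hg.indicator (cut_set n hg)).aestronglyMeasurable) g hlim).trans ?_
  refine liminf_le_of_le (by isBoundedDefault) fun b hb => ?_
  obtain ⟨n, hn⟩ := hb.exists
  refine hn.trans ?_
  -- the test function
  set E : Set ℝ := {x : ℝ | |x| ≤ n ∧ (1 : ℝ) / (n + 1) ≤ ‖g x‖} with hE
  have hEm : MeasurableSet E := cut_set n hg
  set f : ℝ → ℂ := E.indicator fun x => conj (g x) * ((‖g x‖ ^ (r - 2) : ℝ) : ℂ) with hf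
  have hδ : (0 : ℝ) < 1 / (n + 1) := by positivity
  have hfm : Measurable f := by
    refine Measurable.indicator ?_ hEm
    exact (Complex.continuous_conj.measurable.comp hg).mul
      (Complex.measurable_ofReal.comp (hg.norm.pow_const _))
  have hfn : ∀ x ∈ E, ‖f x‖ = ‖g x‖ ^ (r - 1) := by
    intro x hx
    have hgx : 0 < ‖g x‖ := hδ.trans_le hx.2
    rw [hf, indicator_of_mem hx, norm_mul, RCLike.norm_conj, Complex.norm_real,
      Real.norm_of_nonneg (by positivity), mul_comm, ← Real.rpow_add_one hgx.ne']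
    congr 1; ring
  have hfS : Simp f := by
    refine ⟨hfm, (1 / ((n : ℝ) + 1)) ^ (r - 1), B ^ (r - 1), n, by positivity, fun x => ?_⟩
    by_cases hx : x ∈ E
    · right
      have hgx : 0 < ‖g x‖ := hδ.trans_le hx.2
      rw [hfn x hx]
      exact ⟨Real.rpow_le_rpow hδ.le hx.2 (by linarith),
        Real.rpow_le_rpow hgx.le (hB x) (by linarith), hx.1⟩
    · left; rw [hf, indicator_of_notMem hx]
  have hC : Simp (cut n g) := cut_simp n hg hB
  set I : ℝ := NN (cut n g) r with hI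
  have hI0 : 0 ≤ I := NN_nonneg _ _
  have e1 : ∫ x, f x * g x = ((I : ℝ) : ℂ) := by
    rw [hI, NN, ← integral_complex_ofReal]
    congr 1
    funext x
    by_cases hx : x ∈ E
    · have hgx : 0 < ‖g x‖ := hδ.trans_le hx.2
      have e2 : cut n g x = g x := indicator_of_mem hx _
      rw [e2, hf, indicator_of_mem hx]
      have e3 : conj (g x) * ((‖g x‖ ^ (r - 2) : ℝ) : ℂ) * g x
          = (conj (g x) * g x) * ((‖g x‖ ^ (r - 2) : ℝ) : ℂ) := by ring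
      rw [e3, mul_comm (conj (g x)), Complex.mul_conj, Complex.normSq_eq_norm_sq,
        ← Complex.ofReal_mul]
      congr 1
      rw [← Real.rpow_natCast, ← Real.rpow_add hgx]
      congr 1; push_cast; ring
    · have e2 : cut n g x = 0 := indicator_of_notMem hx _
      rw [e2, hf, indicator_of_notMem hx, norm_zero, Real.zero_rpow hr0.ne']
      simp
  have e4 : NN f (1 / d₀) = I := by
    rw [hI, NN, NN]
    congr 1
    funext x
    by_cases hx : x ∈ E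
    · have hgx : 0 < ‖g x‖ := hδ.trans_le hx.2
      have e2 : cut n g x = g x := indicator_of_mem hx _
      rw [e2, hfn x hx, ← Real.rpow_mul hgx.le]
      congr 1
      rw [hr]; field_simp; ring
    · have e2 : cut n g x = 0 := indicator_of_notMem hx _
      rw [e2, hf, indicator_of_notMem hx, norm_zero, Real.zero_rpow (by positivity),
        Real.zero_rpow hr0.ne']
  have h := H f hfS
  rw [e1, e4, Complex.norm_real, Real.norm_of_nonneg hI0] at h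
  have hIA : I ^ (1 - d₀) ≤ A := by
    rcases eq_or_lt_of_le hI0 with h0 | h0
    · rw [← h0, Real.zero_rpow h1d.ne']; exact hA
    · have e5 : I ^ (1 - d₀) * I ^ d₀ = I := by
        rw [← Real.rpow_add h0]; norm_num
      have hp : 0 < I ^ d₀ := by positivity
      refine le_of_mul_le_mul_right ?_ hp
      rw [e5]; exact h
  have hrt : (ENNReal.ofReal r).toReal = r := ENNReal.toReal_ofReal hr0.le
  have h1r : (1 : ℝ≥0∞) ≤ ENNReal.ofReal r := by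
    rw [← ENNReal.ofReal_one]; exact ENNReal.ofReal_le_ofReal hr1.le
  show eLpNorm (cut n g) (ENNReal.ofReal r) volume ≤ ENNReal.ofReal A
  rw [elp_NN (hC.nice.memLp h1r ENNReal.ofReal_ne_top) h1r ENNReal.ofReal_ne_top, hrt]
  apply ENNReal.ofReal_le_ofReal
  have e6 : r⁻¹ = 1 - d₀ := by rw [hr, one_div, inv_inv]
  rw [e6]
  exact hIA

/-- truncation of the three inputs -/
theorem TT_cut {α₁ α₂ α₃ : ℝ} (hε : 0 < ε) {f₁ f₂ f₃ : ℝ → ℂ} (h₁ : Nice f₁) (h₂ : Nice f₂)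
    (h₃ : Nice f₃) (x : ℝ) :
    Tendsto (fun n => TT ε R α₁ α₂ α₃ (cut n f₁) (cut n f₂) (cut n f₃) x) atTop
      (𝓝 (TT ε R α₁ α₂ α₃ f₁ f₂ f₃ x)) := by
  obtain ⟨B₁, hB₁⟩ := h₁.bdd
  obtain ⟨B₂, hB₂⟩ := h₂.bdd
  obtain ⟨B₃, hB₃⟩ := h₃.bdd
  have hB₁0 : 0 ≤ B₁ := (norm_nonneg _).trans (hB₁ 0)
  have hB₂0 : 0 ≤ B₂ := (norm_nonneg _).trans (hB₂ 0)
  have hB₃0 : 0 ≤ B₃ := (norm_nonneg _).trans (hB₃ 0)
  have hm : ∀ n, AEStronglyMeasurable
      (fun t => ph ε R α₁ α₂ α₃ (cut n f₁) (cut n f₂) (cut n f₃) x t) volume := fun n =>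
    ((ph_meas (ε := ε) (R := R) (α₁ := α₁) (α₂ := α₂) (α₃ := α₃)
      (h₁.meas.indicator (cut_set n h₁.meas)) (h₂.meas.indicator (cut_set n h₂.meas))
      (h₃.meas.indicator (cut_set n h₃.meas))).comp
      (measurable_const.prodMk measurable_id)).aestronglyMeasurable
  refine tendsto_integral_of_dominated_convergence
    (fun t => av ε R t * (B₁ * B₂ * B₃)) hm ((av_int hε).mul_const _)
    (fun n => ae_of_all _ fun t => ?_) (ae_of_all _ fun t => ?_)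
  · unfold ph FF
    rw [norm_mul, uu_norm, norm_mul, norm_mul]
    have a1 := av_nonneg ε R t
    have c1 := (cut_norm_le n f₁ (x - α₁ * t)).trans (hB₁ (x - α₁ * t))
    have c2 := (cut_norm_le n f₂ (x - α₂ * t)).trans (hB₂ (x - α₂ * t))
    have c3 := (cut_norm_le n f₃ (x - α₃ * t)).trans (hB₃ (x - α₃ * t))
    gcongr
  · apply tendsto_const_nhds.congr'
    filter_upwards [cut_tendsto f₁ (x - α₁ * t), cut_tendsto f₂ (x - α₂ * t),
      cut_tendsto f₃ (x - α₃ * t)] with n e1 e2 e3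
    unfold ph FF
    rw [e1, e2, e3]

/-- the operator bound, with the exponents `1/d i` -/
theorem op_simp : ∃ C : ℝ, 0 ≤ C ∧ ∀ ε R : ℝ, 0 < ε → ε < R → ∀ d : Fin 4 → ℝ,
    (∀ i, 1 / 6 ≤ d i) → ∑ i, d i = 1 → ∀ f₁ f₂ f₃ : ℝ → ℂ, Simp f₁ → Simp f₂ → Simp f₃ →
      eLpNorm (TT ε R 1 2 3 f₁ f₂ f₃) (ENNReal.ofReal (1 / (1 - d 0))) volume ≤
        ENNReal.ofReal (C * √(Real.log (R / ε)) * ((NN f₁ (1 / d 1)) ^ (d 1) *
          (NN f₂ (1 / d 2)) ^ (d 2) * (NN f₃ (1 / d 3)) ^ (d 3))) := by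
  obtain ⟨C, hC0, hC⟩ := simplex
  refine ⟨C, hC0, fun ε R hε hR d hd hs f₁ f₂ f₃ h₁ h₂ h₃ => ?_⟩
  have hs' := hs
  rw [Fin.sum_univ_four] at hs'
  have d0 := hd 0
  have d1 := hd 1
  have d2 := hd 2
  have d3 := hd 3
  obtain ⟨B, hB⟩ := TT_bdd (R := R) (α₁ := 1) (α₂ := 2) (α₃ := 3) hε h₁.nice h₂.nice h₃.nice
  have n1 := NN_nonneg f₁ (1 / d 1)
  have n2 := NN_nonneg f₂ (1 / d 2)
  have n3 := NN_nonneg f₃ (1 / d 3)
  refine dual (by linarith) (by linarith) (TT_meas h₁.nice h₂.nice h₃.nice) hB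
    (by positivity) fun f₀ h₀ => ?_
  have h := hC ε R hε hR d hd hs ![f₀, f₁, f₂, f₃] (fun i => by
    fin_cases i
    · exact h₀
    · exact h₁
    · exact h₂
    · exact h₃)
  have e1 : QF ε R sl ![f₀, f₁, f₂, f₃] = ∫ x, f₀ x * TT ε R 1 2 3 f₁ f₂ f₃ x := by
    rw [QF_eq]
    exact Q4_pair hε h₀.nice h₁.nice h₂.nice h₃.nice
  rw [e1, Fin.prod_univ_four] at h
  refine h.trans (le_of_eq ?_)
  show C * √(Real.log (R / ε)) * ((NN f₀ (1 / d 0)) ^ (d 0) * (NN f₁ (1 / d 1)) ^ (d 1) *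
    (NN f₂ (1 / d 2)) ^ (d 2) * (NN f₃ (1 / d 3)) ^ (d 3)) = _
  ring

end Vale.Agent.P141.H97
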