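import Vale.Agent.P141.H97.Corner

/-!
# Complex interpolation of the quadrilinear form
-/

namespace Vale.Agent.P141.H97

open MeasureTheory Set Filter Topology
open scoped ENNReal ComplexConjugate

/-- bounded support, values bounded above and away from zero -/
structure Simp (f : ℝ → ℂ) : Prop where
  meas : Measurable f
  bd : ∃ δ B M : ℝ, 0 < δ ∧ ∀ x, f x = 0 ∨ (δ ≤ ‖f x‖ ∧ ‖f x‖ ≤ B ∧ |x| ≤ M)

theorem Simp.nice {f : ℝ → ℂ} (h : Simp f) : Nice f := by
  obtain ⟨δ, B, M, hδ, hb⟩ := h.bd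
  have hle : ∀ x, ‖f x‖ ≤ (Icc (-M) M).indicator (fun _ => |B|) x := by
    intro x
    rcases hb x with h0 | ⟨_, h1, h2⟩
    · rw [h0, norm_zero]; exact indicator_nonneg (fun _ _ => abs_nonneg _) _
    · rw [indicator_of_mem (show x ∈ Icc (-M) M from abs_le.1 h2)]
      exact h1.trans (le_abs_self _)
  refine ⟨h.meas, ⟨|B|, fun x => (hle x).trans ?_⟩, ?_⟩
  · exact indicator_le_self' (fun _ _ => abs_nonneg _) _
  · have hi : Integrable ((Icc (-M) M).indicator fun _ : ℝ => |B|) volume :=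
      (integrable_indicator_iff measurableSet_Icc).2
        (integrableOn_const (by rw [Real.volume_Icc]; exact ENNReal.ofReal_ne_top))
    exact hi.mono' h.meas.aestronglyMeasurable (ae_of_all _ hle)

theorem Simp.log {f : ℝ → ℂ} (h : Simp f) : ∃ K : ℝ, 0 ≤ K ∧ ∀ x, |Real.log ‖f x‖| ≤ K := by
  obtain ⟨δ, B, M, hδ, hb⟩ := h.bd
  refine ⟨|Real.log δ| + |Real.log B|, by positivity, fun x => ?_⟩
  rcases hb x with h0 | ⟨h0, h1, _⟩
  · rw [h0, norm_zero, Real.log_zero, abs_zero]; positivity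
  · have hx : 0 < ‖f x‖ := hδ.trans_le h0
    have a1 := Real.log_le_log hδ h0
    have a2 := Real.log_le_log hx h1
    rw [abs_le]
    constructor
    · linarith [neg_abs_le (Real.log δ), abs_nonneg (Real.log B)]
    · linarith [le_abs_self (Real.log B), abs_nonneg (Real.log δ)]

/-- `f |f|^w` -/
noncomputable def pw (f : ℝ → ℂ) (w : ℂ) (x : ℝ) : ℂ :=
  f x * Complex.exp (w * (Real.log ‖f x‖ : ℝ))

theorem pw_norm (f : ℝ → ℂ) (w : ℂ) (x : ℝ) :
    ‖pw f w x‖ = ‖f x‖ * Real.exp (w.re * Real.log ‖f x‖) := by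
  unfold pw
  rw [norm_mul, Complex.norm_exp, Complex.re_mul_ofReal]

theorem Simp.pw {f : ℝ → ℂ} (h : Simp f) (w : ℂ) : Simp (pw f w) := by
  obtain ⟨K, hK0, hK⟩ := h.log
  obtain ⟨δ, B, M, hδ, hb⟩ := h.bd
  have hm : Measurable (Vale.Agent.P141.H97.pw f w) :=
    h.meas.mul (Complex.measurable_exp.comp (measurable_const.mul
      (Complex.measurable_ofReal.comp (Real.measurable_log.comp h.meas.norm))))
  refine ⟨hm, δ * Real.exp (-(|w.re| * K)), B * Real.exp (|w.re| * K), M, by positivity,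
    fun x => ?_⟩
  rcases hb x with h0 | ⟨h0, h1, h2⟩
  · left; simp [Vale.Agent.P141.H97.pw, h0]
  · right
    rw [pw_norm]
    have a1 : |w.re * Real.log ‖f x‖| ≤ |w.re| * K := by
      rw [abs_mul]; exact mul_le_mul_of_nonneg_left (hK x) (abs_nonneg _)
    have a2 := abs_le.1 a1
    have hx : 0 < ‖f x‖ := hδ.trans_le h0
    refine ⟨?_, ?_, h2⟩
    · have := Real.exp_le_exp.2 a2.1
      gcongr
    · have := Real.exp_le_exp.2 a2.2
      have hB : 0 ≤ B := hx.le.trans h1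
      gcongr

/-- the integral of a power -/
noncomputable def NN (f : ℝ → ℂ) (s : ℝ) : ℝ := ∫ x, ‖f x‖ ^ s

theorem NN_nonneg (f : ℝ → ℂ) (s : ℝ) : 0 ≤ NN f s := integral_nonneg fun _ => by positivity

theorem NN_pw (f : ℝ → ℂ) (w : ℂ) {s t : ℝ} (hs : 0 < s) (ht : 0 < t)
    (h : (1 + w.re) * s = t) : NN (pw f w) s = NN f t := by
  unfold NN
  congr 1
  funext x
  rw [pw_norm]
  rcases eq_or_lt_of_le (norm_nonneg (f x)) with h0 | h0
  · rw [← h0, Real.log_zero, mul_zero, Real.exp_zero, mul_one, Real.zero_rpow hs.ne',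
      Real.zero_rpow ht.ne']
  · have e : ‖f x‖ * Real.exp (w.re * Real.log ‖f x‖) = ‖f x‖ ^ (1 + w.re) := by
      rw [Real.rpow_add h0, Real.rpow_one, Real.rpow_def_of_pos h0 w.re, mul_comm w.re]
    rw [e, ← Real.rpow_mul h0.le, h]

/-- the form with four functions in a family -/
noncomputable def qf (ε R : ℝ) (b : Fin 4 → ℝ) (f : Fin 4 → ℝ → ℂ) (p : ℝ × ℝ) : ℂ :=
  uu ε R p.2 * ∏ i, f i (p.1 - b i * p.2)

/-- the form with four functions in a family -/
noncomputable def QF (ε R : ℝ) (b : Fin 4 → ℝ) (f : Fin 4 → ℝ → ℂ) : ℂ := ∫ p, qf ε R b f p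

theorem qf_eq (ε R : ℝ) (b : Fin 4 → ℝ) (f : Fin 4 → ℝ → ℂ) :
    qf ε R b f = q4 ε R (b 0) (b 1) (b 2) (b 3) (f 0) (f 1) (f 2) (f 3) := by
  funext p
  unfold qf q4
  rw [Fin.prod_univ_four]
  ring

theorem QF_eq (ε R : ℝ) (b : Fin 4 → ℝ) (f : Fin 4 → ℝ → ℂ) :
    QF ε R b f = Q4 ε R (b 0) (b 1) (b 2) (b 3) (f 0) (f 1) (f 2) (f 3) := by
  unfold QF Q4
  rw [qf_eq]

theorem qf_int {ε R : ℝ} (hε : 0 < ε) {b : Fin 4 → ℝ} {f : Fin 4 → ℝ → ℂ}
    (hf : ∀ i, Nice (f i)) : Integrable (qf ε R b f) volume := by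
  rw [qf_eq]
  exact q4_int hε (hf 0) (hf 1) (hf 2) (hf 3)

/-- the analytic family -/
theorem diff_int {G : ℝ × ℝ → ℂ} (hG : Integrable G volume) {l : ℝ × ℝ → ℝ} (hl : Measurable l)
    {L : ℝ} (hL : ∀ p, |l p| ≤ L) (θ : ℂ) :
    Differentiable ℂ fun z : ℂ => ∫ p, G p * Complex.exp ((z - θ) * (l p : ℝ)) := by
  have hL0 : 0 ≤ L := (abs_nonneg _).trans (hL 0)
  have hlc : Measurable fun p => ((l p : ℝ) : ℂ) := Complex.measurable_ofReal.comp hl
  have hmeas : ∀ z : ℂ, AEStronglyMeasurable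
      (fun p => G p * Complex.exp ((z - θ) * (l p : ℝ))) volume := fun z =>
    hG.aestronglyMeasurable.mul
      (Complex.measurable_exp.comp (measurable_const.mul hlc)).aestronglyMeasurable
  have hexp : ∀ (z : ℂ) p, ‖Complex.exp ((z - θ) * (l p : ℝ))‖ ≤ Real.exp (‖z - θ‖ * L) := by
    intro z p
    rw [Complex.norm_exp, Complex.re_mul_ofReal]
    apply Real.exp_le_exp.2
    calc (z - θ).re * l p ≤ |(z - θ).re * l p| := le_abs_self _
      _ = |(z - θ).re| * |l p| := abs_mul _ _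
      _ ≤ ‖z - θ‖ * L := mul_le_mul (Complex.abs_re_le_norm _) (hL p) (abs_nonneg _)
          (norm_nonneg _)
  intro z₀
  have key := hasDerivAt_integral_of_dominated_loc_of_deriv_le (μ := (volume : Measure (ℝ × ℝ)))
    (F := fun z p => G p * Complex.exp ((z - θ) * (l p : ℝ)))
    (F' := fun z p => G p * (Complex.exp ((z - θ) * (l p : ℝ)) * (l p : ℝ)))
    (bound := fun p => ‖G p‖ * (Real.exp ((‖z₀ - θ‖ + 1) * L) * L)) (x₀ := z₀) (s := Metric.ball z₀ 1)
    (Metric.ball_mem_nhds z₀ one_pos) (Eventually.of_forall hmeas) ?_ ?_ ?_ ?_ ?_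
  · exact key.2.differentiableAt
  · refine (hG.norm.mul_const (Real.exp (‖z₀ - θ‖ * L))).mono' (hmeas z₀)
      (ae_of_all _ fun p => ?_)
    rw [norm_mul]
    exact mul_le_mul_of_nonneg_left (hexp z₀ p) (norm_nonneg _)
  · exact hG.aestronglyMeasurable.mul
      ((Complex.measurable_exp.comp (measurable_const.mul hlc)).mul hlc).aestronglyMeasurable
  · refine ae_of_all _ fun p z hz => ?_
    rw [norm_mul, norm_mul, Complex.norm_real, Real.norm_eq_abs]
    have h1 : ‖z - θ‖ ≤ ‖z₀ - θ‖ + 1 := by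
      have : ‖z - z₀‖ < 1 := by rwa [← dist_eq_norm]
      calc ‖z - θ‖ = ‖(z₀ - θ) + (z - z₀)‖ := by congr 1; ring
        _ ≤ ‖z₀ - θ‖ + ‖z - z₀‖ := norm_add_le _ _
        _ ≤ _ := by linarith
    have h2 : ‖Complex.exp ((z - θ) * (l p : ℝ))‖ ≤ Real.exp ((‖z₀ - θ‖ + 1) * L) :=
      (hexp z p).trans (Real.exp_le_exp.2 (mul_le_mul_of_nonneg_right h1 hL0))
    have h3 := hL p
    gcongr
  · exact hG.norm.mul_const _
  · refine ae_of_all _ fun p z _ => ?_
    have h1 : HasDerivAt (fun z : ℂ => (z - θ) * ((l p : ℝ) : ℂ)) ((l p : ℝ) : ℂ) z := by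
      simpa using ((hasDerivAt_id z).sub_const θ).mul_const ((l p : ℝ) : ℂ)
    exact (h1.cexp).const_mul (G p)

theorem qf_pw (ε R : ℝ) (b : Fin 4 → ℝ) (f : Fin 4 → ℝ → ℂ) (lam : Fin 4 → ℝ) (z θ : ℂ)
    (p : ℝ × ℝ) : qf ε R b (fun i => pw (f i) (lam i * (z - θ))) p
      = qf ε R b f p * Complex.exp ((z - θ) *
        ((∑ i, lam i * Real.log ‖f i (p.1 - b i * p.2)‖ : ℝ))) := by
  unfold qf pw
  rw [Finset.prod_mul_distrib, ← Complex.exp_sum, mul_assoc]
  congr 3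
  push_cast
  rw [Finset.mul_sum]
  apply Finset.sum_congr rfl
  intro i _
  ring

/-- interpolation between two exponents -/
theorem interp {ε R : ℝ} (hε : 0 < ε) {b : Fin 4 → ℝ} {A : ℝ} (hA : 0 ≤ A) {a c : Fin 4 → ℝ}
    (ha : ∀ i, 0 < a i) (hc : ∀ i, 0 < c i) {θ : ℝ} (hθ0 : 0 ≤ θ) (hθ1 : θ ≤ 1)
    (Ha : ∀ f : Fin 4 → ℝ → ℂ, (∀ i, Simp (f i)) →
      ‖QF ε R b f‖ ≤ A * ∏ i, (NN (f i) (1 / a i)) ^ (a i))
    (Hc : ∀ f : Fin 4 → ℝ → ℂ, (∀ i, Simp (f i)) →
      ‖QF ε R b f‖ ≤ A * ∏ i, (NN (f i) (1 / c i)) ^ (c i))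
    {d : Fin 4 → ℝ} (hd : ∀ i, d i = (1 - θ) * a i + θ * c i)
    (f : Fin 4 → ℝ → ℂ) (hf : ∀ i, Simp (f i)) :
    ‖QF ε R b f‖ ≤ A * ∏ i, (NN (f i) (1 / d i)) ^ (d i) := by
  have hd0 : ∀ i, 0 < d i := by
    intro i
    rw [hd]
    rcases eq_or_lt_of_le hθ0 with h | h
    · rw [← h]; have := ha i; linarith
    · have h1 := mul_pos h (hc i)
      have h2 := mul_nonneg (sub_nonneg.2 hθ1) (ha i).le
      linarith
  set lam : Fin 4 → ℝ := fun i => (c i - a i) / d i with hlam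
  set l : ℝ × ℝ → ℝ := fun p => ∑ i, lam i * Real.log ‖f i (p.1 - b i * p.2)‖ with hl
  choose K hK0 hK using fun i => (hf i).log
  have hlL : ∀ p, |l p| ≤ ∑ i, |lam i| * K i := by
    intro p
    refine (Finset.abs_sum_le_sum_abs _ _).trans (Finset.sum_le_sum fun i _ => ?_)
    rw [abs_mul]
    exact mul_le_mul_of_nonneg_left (hK i _) (abs_nonneg _)
  set L : ℝ := ∑ i, |lam i| * K i with hLdef
  have hL0 : 0 ≤ L := (abs_nonneg _).trans (hlL 0)
  have hlm : Measurable l := by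
    refine Finset.measurable_sum _ fun i _ => measurable_const.mul (Real.measurable_log.comp ?_)
    exact ((hf i).meas.comp (measurable_fst.sub (measurable_const.mul measurable_snd))).norm
  have hG : Integrable (qf ε R b f) volume := qf_int hε fun i => (hf i).nice
  set Φ : ℂ → ℂ := fun z => ∫ p, qf ε R b f p * Complex.exp ((z - θ) * (l p : ℝ)) with hΦ
  have hdiff : Differentiable ℂ Φ := diff_int hG hlm hlL θ
  have hΦeq : ∀ z, Φ z = QF ε R b (fun i => pw (f i) (lam i * (z - θ))) := by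
    intro z
    unfold QF
    show ∫ p, qf ε R b f p * Complex.exp ((z - θ) * (l p : ℝ)) = _
    congr 1
    funext p
    rw [qf_pw]
  have hw : ∀ (z : ℂ) i, ((lam i : ℂ) * (z - θ)).re = lam i * (z.re - θ) := by
    intro z i
    rw [Complex.re_ofReal_mul, Complex.sub_re, Complex.ofReal_re]
  have h0 : ∀ z ∈ Complex.re ⁻¹' {(0 : ℝ)}, ‖Φ z‖ ≤ A * ∏ i, (NN (f i) (1 / d i)) ^ (a i) := by
    intro z hz
    rw [hΦeq]
    refine (Ha _ fun i => (hf i).pw _).trans (le_of_eq ?_)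
    congr 1
    apply Finset.prod_congr rfl
    intro i _
    have hz' : z.re = 0 := hz
    have h1 := (ha i).ne'
    have h2 := (hd0 i).ne'
    rw [NN_pw (f i) _ (s := 1 / a i) (t := 1 / d i) (by have := ha i; positivity)
      (by have := hd0 i; positivity)]
    rw [hw, hz', hlam]
    simp only
    field_simp
    rw [hd i]; ring
  have h1 : ∀ z ∈ Complex.re ⁻¹' {(1 : ℝ)}, ‖Φ z‖ ≤ A * ∏ i, (NN (f i) (1 / d i)) ^ (c i) := by
    intro z hz
    rw [hΦeq]
    refine (Hc _ fun i => (hf i).pw _).trans (le_of_eq ?_)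
    congr 1
    apply Finset.prod_congr rfl
    intro i _
    have hz' : z.re = 1 := hz
    have h1 := (hc i).ne'
    have h2 := (hd0 i).ne'
    rw [NN_pw (f i) _ (s := 1 / c i) (t := 1 / d i) (by have := hc i; positivity)
      (by have := hd0 i; positivity)]
    rw [hw, hz', hlam]
    simp only
    field_simp
    rw [hd i]; ring
  have hbdd : BddAbove ((norm ∘ Φ) '' Complex.HadamardThreeLines.verticalClosedStrip 0 1) := by
    refine ⟨(∫ p, ‖qf ε R b f p‖) * Real.exp L, ?_⟩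
    rintro _ ⟨z, hz, rfl⟩
    have hz' : z.re ∈ Icc (0 : ℝ) 1 := hz
    have hzθ : |z.re - θ| ≤ 1 := by
      rw [abs_le]; constructor <;> linarith [hz'.1, hz'.2]
    simp only [Function.comp]
    rw [← integral_mul_const]
    refine norm_integral_le_of_norm_le (hG.norm.mul_const _) (ae_of_all _ fun p => ?_)
    rw [norm_mul, Complex.norm_exp, Complex.re_mul_ofReal, Complex.sub_re, Complex.ofReal_re]
    apply mul_le_mul_of_nonneg_left _ (norm_nonneg _)
    apply Real.exp_le_exp.2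
    calc (z.re - θ) * l p ≤ |(z.re - θ) * l p| := le_abs_self _
      _ = |z.re - θ| * |l p| := abs_mul _ _
      _ ≤ 1 * L := mul_le_mul hzθ (hlL p) (abs_nonneg _) zero_le_one
      _ = L := one_mul _
  have hθmem : (θ : ℂ) ∈ Complex.HadamardThreeLines.verticalClosedStrip 0 1 := by
    show (θ : ℂ).re ∈ Icc (0 : ℝ) 1
    rw [Complex.ofReal_re]; exact ⟨hθ0, hθ1⟩
  have key := Complex.HadamardThreeLines.norm_le_interp_of_mem_verticalClosedStrip' (f := Φ)
    (l := 0) (u := 1) one_pos hθmem hdiff.diffContOnCl hbdd h0 h1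
  have hΦθ : Φ θ = QF ε R b f := by
    show ∫ p, qf ε R b f p * Complex.exp (((θ : ℂ) - θ) * (l p : ℝ)) = ∫ p, qf ε R b f p
    congr 1
    funext p
    simp
  rw [hΦθ, Complex.ofReal_re, sub_zero, sub_zero, div_one] at key
  refine key.trans (le_of_eq ?_)
  have hN : ∀ i, 0 ≤ NN (f i) (1 / d i) := fun i => NN_nonneg _ _
  have hP1 : 0 ≤ ∏ i, (NN (f i) (1 / d i)) ^ (a i) :=
    Finset.prod_nonneg fun i _ => Real.rpow_nonneg (hN i) _
  have hP2 : 0 ≤ ∏ i, (NN (f i) (1 / d i)) ^ (c i) :=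
    Finset.prod_nonneg fun i _ => Real.rpow_nonneg (hN i) _
  rw [Real.mul_rpow hA hP1, Real.mul_rpow hA hP2,
    ← Real.finsetProd_rpow _ _ (fun i _ => Real.rpow_nonneg (hN i) _),
    ← Real.finsetProd_rpow _ _ (fun i _ => Real.rpow_nonneg (hN i) _)]
  have e1 : A ^ (1 - θ) * A ^ θ = A := by
    rw [← Real.rpow_add' hA (by norm_num)]; norm_num
  calc (A ^ (1 - θ) * ∏ i, ((NN (f i) (1 / d i)) ^ (a i)) ^ (1 - θ)) *
        (A ^ θ * ∏ i, ((NN (f i) (1 / d i)) ^ (c i)) ^ θ)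
      = (A ^ (1 - θ) * A ^ θ) * ((∏ i, ((NN (f i) (1 / d i)) ^ (a i)) ^ (1 - θ)) *
        ∏ i, ((NN (f i) (1 / d i)) ^ (c i)) ^ θ) := by ring
    _ = A * ∏ i, (NN (f i) (1 / d i)) ^ (d i) := by
      rw [e1, ← Finset.prod_mul_distrib]
      congr 1
      apply Finset.prod_congr rfl
      intro i _
      rw [← Real.rpow_mul (hN i), ← Real.rpow_mul (hN i), ← Real.rpow_add' (hN i)]
      · rw [hd i]; ring_nf
      · have : a i * (1 - θ) + c i * θ = d i := by rw [hd i]; ring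
        rw [this]; exact (hd0 i).ne'

end Vale.Agent.P141.H97
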