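import Vale.Agent.P075.R.Final

/-!
# Linear changes of variables in the plane and the norms of localised ridge functions
-/

namespace Vale.Agent.P141.H97

open MeasureTheory Set
open scoped ENNReal

/-- linear change of variables in the plane -/
theorem lin2 (A B C D : ℝ) (h : A * D - B * C ≠ 0) (v w : ℝ) (f : ℝ × ℝ → ℂ) :
    ∫ p : ℝ × ℝ, f (A * p.1 + B * p.2 + v, C * p.1 + D * p.2 + w)
      = |A * D - B * C|⁻¹ • ∫ p, f p := by
  let L : ℝ × ℝ →ₗ[ℝ] ℝ × ℝ := Matrix.toLin (Module.Basis.finTwoProd ℝ)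
    (Module.Basis.finTwoProd ℝ) !![A, B; C, D]
  have hdet : LinearMap.det L = A * D - B * C := by
    simp [L, LinearMap.det_toLin, Matrix.det_fin_two_of]
  have hL : ∀ p, L p = (A * p.1 + B * p.2, C * p.1 + D * p.2) := by
    intro p
    simp [L, Matrix.toLin_finTwoProd_apply]
  have hd : LinearMap.det L ≠ 0 := by rw [hdet]; exact h
  have hmap := Measure.map_linearMap_addHaar_eq_smul_addHaar
    (μ := (volume : Measure (ℝ × ℝ))) hd
  let e := (L.equivOfDetNeZero hd).toContinuousLinearEquiv.toHomeomorph.toMeasurableEquiv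
  have he : ∀ p, e p = L p := fun p => rfl
  have h1 : ∫ p : ℝ × ℝ, f (A * p.1 + B * p.2 + v, C * p.1 + D * p.2 + w)
      = ∫ p : ℝ × ℝ, (fun q => f (q + (v, w))) (e p) := by
    congr 1
    funext p
    rw [he, hL]
    simp
  rw [h1, ← integral_map_equiv e (fun q => f (q + (v, w)))]
  have h2 : Measure.map (⇑e) (volume : Measure (ℝ × ℝ)) = Measure.map (⇑L) volume := rfl
  rw [h2, hmap, integral_smul_measure, hdet]
  congr 1
  · rw [ENNReal.toReal_ofReal (abs_nonneg _), abs_inv]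
  · exact integral_add_right_eq_self f (v, w)

theorem lint1 (κ c : ℝ) (hκ : κ ≠ 0) (f : ℝ → ℝ≥0∞) :
    ∫⁻ x, f (κ * x + c) = ENNReal.ofReal |κ|⁻¹ * ∫⁻ x, f x := by
  have h2 : ∫⁻ x, (fun y => f (y + c)) (κ * x)
      = ENNReal.ofReal |κ|⁻¹ * ∫⁻ x, f (x + c) := by
    have h3 := Real.map_volume_mul_left hκ
    have h4 := lintegral_map_equiv (μ := volume) (fun y => f (y + c))
      (Homeomorph.mulLeft₀ κ hκ).toMeasurableEquiv
    have h5 : Measure.map (⇑(Homeomorph.mulLeft₀ κ hκ).toMeasurableEquiv) volume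
        = Measure.map (fun x => κ * x) volume := rfl
    rw [h5, h3, lintegral_smul_measure] at h4
    rw [← abs_inv]
    exact h4.symm
  rw [← lintegral_add_right_eq_self f c, ← h2]

/-- norm of a localised ridge function, localised in the second variable -/
theorem nrm2 (κ l : ℝ) (hκ : κ ≠ 0) (J : Set ℝ) (hJ : MeasurableSet J) (len : ℝ) (hl : 0 ≤ len)
    (hv : volume J = ENNReal.ofReal len) (g : ℝ → ℂ) (hg : Measurable g) :
    eLpNorm (fun p : ℝ × ℝ => g (κ * p.1 + l * p.2) * J.indicator 1 p.2) 3 volume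
      = ENNReal.ofReal ((len / |κ|) ^ ((1 : ℝ) / 3)) * eLpNorm g 3 volume := by
  have h3 : (3 : ℝ≥0∞).toReal = 3 := by norm_num
  rw [eLpNorm_eq_lintegral_rpow_enorm_toReal (by norm_num) (by norm_num),
    eLpNorm_eq_lintegral_rpow_enorm_toReal (by norm_num) (by norm_num), h3]
  have hm : Measurable fun p : ℝ × ℝ => ‖g (κ * p.1 + l * p.2) * J.indicator 1 p.2‖ₑ ^ (3 : ℝ) := by
    have h1 : Measurable fun p : ℝ × ℝ => g (κ * p.1 + l * p.2) :=
      hg.comp ((measurable_const.mul measurable_fst).add (measurable_const.mul measurable_snd))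
    have h2 : Measurable fun p : ℝ × ℝ => (J.indicator 1 p.2 : ℂ) :=
      (measurable_one.indicator hJ).comp measurable_snd
    exact ((h1.mul h2).enorm).pow_const _
  have h1 : ∫⁻ p : ℝ × ℝ, ‖g (κ * p.1 + l * p.2) * J.indicator 1 p.2‖ₑ ^ (3 : ℝ)
      = ENNReal.ofReal (len / |κ|) * ∫⁻ x, ‖g x‖ₑ ^ (3 : ℝ) := by
    rw [Measure.volume_eq_prod, lintegral_prod_symm _ hm.aemeasurable]
    have h2 : ∀ y : ℝ, ∫⁻ x, ‖g (κ * x + l * y) * J.indicator 1 y‖ₑ ^ (3 : ℝ)
        = J.indicator (fun _ => ENNReal.ofReal |κ|⁻¹ * ∫⁻ x, ‖g x‖ₑ ^ (3 : ℝ)) y := by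
      intro y
      by_cases hy : y ∈ J
      · simp only [indicator_of_mem hy, Pi.one_apply, mul_one]
        exact lint1 κ (l * y) hκ (fun x => ‖g x‖ₑ ^ (3 : ℝ))
      · simp [indicator_of_notMem hy]
    simp only [h2]
    rw [lintegral_indicator hJ, setLIntegral_const, hv, mul_comm, ← mul_assoc,
      ← ENNReal.ofReal_mul hl, div_eq_mul_inv]
  rw [h1, ENNReal.mul_rpow_of_nonneg _ _ (by norm_num),
    ENNReal.ofReal_rpow_of_nonneg (by positivity) (by norm_num)]

end Vale.Agent.P141.H97
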