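import Vale.Agent.P141.H97.Corr

/-!
# The square-root-of-log bound for the truncated trilinear Hilbert form
-/

namespace Vale.Agent.P141.H97

open MeasureTheory Set Filter Topology
open scoped ENNReal ComplexConjugate

/-- `1_{ε<|t|<R} / t` -/
noncomputable def uu (ε R t : ℝ) : ℂ :=
  {t : ℝ | ε < |t| ∧ |t| < R}.indicator (fun t => (((t : ℝ) : ℂ))⁻¹) t

theorem uu_meas (ε R : ℝ) : Measurable (uu ε R) :=
  (Complex.measurable_ofReal.inv).indicator (setA_meas ε R)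

theorem uu_norm (ε R t : ℝ) : ‖uu ε R t‖ = av ε R t := by
  unfold uu av
  by_cases ht : t ∈ {t : ℝ | ε < |t| ∧ |t| < R}
  · rw [indicator_of_mem ht, indicator_of_mem ht, norm_inv, Complex.norm_real, Real.norm_eq_abs]
  · rw [indicator_of_notMem ht, indicator_of_notMem ht, norm_zero]

theorem uu_conj (ε R t : ℝ) : conj (uu ε R t) = uu ε R t := by
  unfold uu
  by_cases ht : t ∈ {t : ℝ | ε < |t| ∧ |t| < R}
  · rw [indicator_of_mem ht, map_inv₀, Complex.conj_ofReal]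
  · rw [indicator_of_notMem ht, map_zero]

section

variable (ε R α₁ α₂ α₃ : ℝ) (f₁ f₂ f₃ : ℝ → ℂ)

/-- cut-off integrand -/
noncomputable def ph (x t : ℝ) : ℂ := uu ε R t * FF α₁ α₂ α₃ f₁ f₂ f₃ x t

/-- the truncated operator -/
noncomputable def TT (x : ℝ) : ℂ := ∫ t, ph ε R α₁ α₂ α₃ f₁ f₂ f₃ x t

/-- the product of two copies -/
noncomputable def Th (p : ℝ × ℝ × ℝ) : ℂ :=
  ph ε R α₁ α₂ α₃ f₁ f₂ f₃ p.1 p.2.1 * conj (ph ε R α₁ α₂ α₃ f₁ f₂ f₃ p.1 p.2.2)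

/-- the integral in `x` -/
noncomputable def Ph (q : ℝ × ℝ) : ℂ := uu ε R q.1 * uu ε R q.2 * JJ α₁ α₂ α₃ f₁ f₂ f₃ q

variable {ε R α₁ α₂ α₃ f₁ f₂ f₃}

theorem ph_meas (h₁ : Measurable f₁) (h₂ : Measurable f₂) (h₃ : Measurable f₃) :
    Measurable fun p : ℝ × ℝ => ph ε R α₁ α₂ α₃ f₁ f₂ f₃ p.1 p.2 :=
  ((uu_meas ε R).comp measurable_snd).mul (FF_meas h₁ h₂ h₃)

theorem Th_meas (h₁ : Measurable f₁) (h₂ : Measurable f₂) (h₃ : Measurable f₃) :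
    Measurable (Th ε R α₁ α₂ α₃ f₁ f₂ f₃) := by
  have m := ph_meas (ε := ε) (R := R) (α₁ := α₁) (α₂ := α₂) (α₃ := α₃) h₁ h₂ h₃
  have m1 : Measurable fun p : ℝ × ℝ × ℝ => ph ε R α₁ α₂ α₃ f₁ f₂ f₃ p.1 p.2.1 :=
    m.comp (measurable_fst.prodMk (measurable_fst.comp measurable_snd))
  have m2 : Measurable fun p : ℝ × ℝ × ℝ => ph ε R α₁ α₂ α₃ f₁ f₂ f₃ p.1 p.2.2 :=
    m.comp (measurable_fst.prodMk (measurable_snd.comp measurable_snd))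
  exact m1.mul (Complex.continuous_conj.measurable.comp m2)

theorem Th_int (hε : 0 < ε) (h₁ : Nice f₁) (h₂ : Nice f₂) (h₃ : Nice f₃) :
    Integrable (Th ε R α₁ α₂ α₃ f₁ f₂ f₃) volume := by
  obtain ⟨B₁, hB₁⟩ := h₁.bdd
  obtain ⟨B₂, hB₂⟩ := h₂.bdd
  obtain ⟨B₃, hB₃⟩ := h₃.bdd
  have hB₁0 : 0 ≤ B₁ := (norm_nonneg _).trans (hB₁ 0)
  have hB₂0 : 0 ≤ B₂ := (norm_nonneg _).trans (hB₂ 0)
  have hB₃0 : 0 ≤ B₃ := (norm_nonneg _).trans (hB₃ 0)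
  have hψ : Integrable (fun q : ℝ × ℝ => (B₂ * B₃ * (B₁ * B₂ * B₃)) *
      (av ε R q.1 * av ε R q.2)) volume :=
    ((av_int hε).mul_prod (av_int hε)).const_mul _
  have hψm : Measurable (fun q : ℝ × ℝ => (B₂ * B₃ * (B₁ * B₂ * B₃)) *
      (av ε R q.1 * av ε R q.2)) :=
    measurable_const.mul (((av_meas ε R).comp measurable_fst).mul
      ((av_meas ε R).comp measurable_snd))
  have key := int_shift (ν := (volume : Measure (ℝ × ℝ))) h₁ (s := fun q => α₁ * q.1)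
    (measurable_const.mul measurable_fst) hψ hψm
  rw [← Measure.volume_eq_prod] at key
  refine key.mono' (Th_meas h₁.meas h₂.meas h₃.meas).aestronglyMeasurable
    (ae_of_all _ fun p => ?_)
  unfold Th ph FF
  rw [norm_mul, RCLike.norm_conj, norm_mul, norm_mul, norm_mul, norm_mul, norm_mul, norm_mul,
    uu_norm, uu_norm]
  have a1 := av_nonneg ε R p.2.1
  have a2 := av_nonneg ε R p.2.2
  have b1 := hB₂ (p.1 - α₂ * p.2.1)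
  have b2 := hB₃ (p.1 - α₃ * p.2.1)
  have b3 := hB₁ (p.1 - α₁ * p.2.2)
  have b4 := hB₂ (p.1 - α₂ * p.2.2)
  have b5 := hB₃ (p.1 - α₃ * p.2.2)
  calc av ε R p.2.1 * (‖f₁ (p.1 - α₁ * p.2.1)‖ * ‖f₂ (p.1 - α₂ * p.2.1)‖ *
        ‖f₃ (p.1 - α₃ * p.2.1)‖) * (av ε R p.2.2 * (‖f₁ (p.1 - α₁ * p.2.2)‖ *
        ‖f₂ (p.1 - α₂ * p.2.2)‖ * ‖f₃ (p.1 - α₃ * p.2.2)‖))
      ≤ av ε R p.2.1 * (‖f₁ (p.1 - α₁ * p.2.1)‖ * B₂ * B₃) *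
        (av ε R p.2.2 * (B₁ * B₂ * B₃)) := by gcongr
    _ = _ := by ring

theorem TT_sq (hε : 0 < ε) (h₁ : Nice f₁) (h₂ : Nice f₂) (h₃ : Nice f₃) :
    ((∫ x, ‖TT ε R α₁ α₂ α₃ f₁ f₂ f₃ x‖ ^ 2 : ℝ) : ℂ)
      = ∫ q, Ph ε R α₁ α₂ α₃ f₁ f₂ f₃ q := by
  have hI := Th_int (R := R) (α₁ := α₁) (α₂ := α₂) (α₃ := α₃) hε h₁ h₂ h₃
  rw [← integral_complex_ofReal]
  have h1 : ∀ x, ((‖TT ε R α₁ α₂ α₃ f₁ f₂ f₃ x‖ ^ 2 : ℝ) : ℂ)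
      = ∫ q : ℝ × ℝ, Th ε R α₁ α₂ α₃ f₁ f₂ f₃ (x, q) := by
    intro x
    have h2 : ∫ q : ℝ × ℝ, Th ε R α₁ α₂ α₃ f₁ f₂ f₃ (x, q)
        = (∫ t, ph ε R α₁ α₂ α₃ f₁ f₂ f₃ x t) *
          ∫ t, conj (ph ε R α₁ α₂ α₃ f₁ f₂ f₃ x t) := by
      rw [Measure.volume_eq_prod]
      exact integral_prod_mul (fun t => ph ε R α₁ α₂ α₃ f₁ f₂ f₃ x t)
        (fun t => conj (ph ε R α₁ α₂ α₃ f₁ f₂ f₃ x t))
    rw [h2, integral_conj]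
    unfold TT
    rw [Complex.mul_conj, Complex.normSq_eq_norm_sq]
  simp only [h1]
  rw [Measure.volume_eq_prod] at hI
  have h3 := integral_integral_swap (f := fun x q => Th ε R α₁ α₂ α₃ f₁ f₂ f₃ (x, q)) hI
  rw [h3]
  congr 1
  funext q
  unfold Ph JJ
  rw [← integral_const_mul]
  congr 1
  funext x
  unfold Th ph
  rw [map_mul, uu_conj]
  ring

theorem TT_sq_int (hε : 0 < ε) (h₁ : Nice f₁) (h₂ : Nice f₂) (h₃ : Nice f₃) :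
    Integrable (fun x => ‖TT ε R α₁ α₂ α₃ f₁ f₂ f₃ x‖ ^ 2) volume := by
  have hI := Th_int (R := R) (α₁ := α₁) (α₂ := α₂) (α₃ := α₃) hε h₁ h₂ h₃
  rw [Measure.volume_eq_prod] at hI
  have h1 := hI.integral_prod_left.norm
  refine h1.congr (ae_of_all _ fun x => ?_)
  have h2 : ∫ q : ℝ × ℝ, Th ε R α₁ α₂ α₃ f₁ f₂ f₃ (x, q)
      = (∫ t, ph ε R α₁ α₂ α₃ f₁ f₂ f₃ x t) *
        ∫ t, conj (ph ε R α₁ α₂ α₃ f₁ f₂ f₃ x t) := by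
    rw [Measure.volume_eq_prod]
    exact integral_prod_mul (fun t => ph ε R α₁ α₂ α₃ f₁ f₂ f₃ x t)
      (fun t => conj (ph ε R α₁ α₂ α₃ f₁ f₂ f₃ x t))
  show ‖∫ q : ℝ × ℝ, Th ε R α₁ α₂ α₃ f₁ f₂ f₃ (x, q)‖ = ‖TT ε R α₁ α₂ α₃ f₁ f₂ f₃ x‖ ^ 2
  rw [h2, integral_conj, norm_mul, RCLike.norm_conj, pow_two]
  rfl

theorem Ph_int (hε : 0 < ε) (h₁ : Nice f₁) (h₂ : Nice f₂) (h₃ : Nice f₃) :
    Integrable (Ph ε R α₁ α₂ α₃ f₁ f₂ f₃) volume := by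
  have hI := Th_int (R := R) (α₁ := α₁) (α₂ := α₂) (α₃ := α₃) hε h₁ h₂ h₃
  rw [Measure.volume_eq_prod] at hI
  refine hI.integral_prod_right.congr (ae_of_all _ fun q => ?_)
  show ∫ x, Th ε R α₁ α₂ α₃ f₁ f₂ f₃ (x, q) = _
  unfold Ph JJ
  rw [← integral_const_mul]
  congr 1
  funext x
  unfold Th ph
  rw [map_mul, uu_conj]
  ring

theorem Ph_le (h₁ : Nice f₁) (h₂ : Nice f₂) (h₃ : Nice f₃) (q : ℝ × ℝ) :
    ‖Ph ε R α₁ α₂ α₃ f₁ f₂ f₃ q‖ ≤ PP f₁ f₂ f₃ * (av ε R q.1 * av ε R q.2) := by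
  unfold Ph
  rw [norm_mul, norm_mul, uu_norm, uu_norm, mul_comm]
  have := JJ_le (α₁ := α₁) (α₂ := α₂) (α₃ := α₃) h₁ h₂ h₃ q
  have a1 := av_nonneg ε R q.1
  have a2 := av_nonneg ε R q.2
  gcongr

end

end Vale.Agent.P141.H97
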