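import Vale.Agent.P141.H97.Parts

/-!
# The middle part of the plane: the bilinear Hilbert forms of the products
-/

namespace Vale.Agent.P141.H97

open MeasureTheory Set Filter Topology
open scoped ENNReal ComplexConjugate

/-- `1_{ε<|t|<R}` -/
noncomputable def oo (ε R t : ℝ) : ℂ := {t : ℝ | ε < |t| ∧ |t| < R}.indicator 1 t

theorem oo_meas (ε R : ℝ) : Measurable (oo ε R) := measurable_one.indicator (setA_meas ε R)

theorem oo_conj (ε R t : ℝ) : conj (oo ε R t) = oo ε R t := by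
  unfold oo
  by_cases ht : t ∈ {t : ℝ | ε < |t| ∧ |t| < R}
  · rw [indicator_of_mem ht]; simp
  · rw [indicator_of_notMem ht, map_zero]

theorem oo_norm_le (ε R t : ℝ) : ‖oo ε R t‖ ≤ 1 := by
  unfold oo
  by_cases ht : t ∈ {t : ℝ | ε < |t| ∧ |t| < R}
  · rw [indicator_of_mem ht]; simp
  · rw [indicator_of_notMem ht]; simp

variable {ε R α₁ α₂ α₃ : ℝ} {f₁ f₂ f₃ : ℝ → ℂ}

theorem JJ_meas (h₁ : Measurable f₁) (h₂ : Measurable f₂) (h₃ : Measurable f₃) :
    Measurable (JJ α₁ α₂ α₃ f₁ f₂ f₃) := by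
  have m := FF_meas (α₁ := α₁) (α₂ := α₂) (α₃ := α₃) h₁ h₂ h₃
  have m1 : Measurable fun p : (ℝ × ℝ) × ℝ => FF α₁ α₂ α₃ f₁ f₂ f₃ p.2 p.1.1 :=
    m.comp (measurable_snd.prodMk (measurable_fst.comp measurable_fst))
  have m2 : Measurable fun p : (ℝ × ℝ) × ℝ => FF α₁ α₂ α₃ f₁ f₂ f₃ p.2 p.1.2 :=
    m.comp (measurable_snd.prodMk (measurable_snd.comp measurable_fst))
  have m3 : StronglyMeasurable fun p : (ℝ × ℝ) × ℝ => FF α₁ α₂ α₃ f₁ f₂ f₃ p.2 p.1.1 *
      conj (FF α₁ α₂ α₃ f₁ f₂ f₃ p.2 p.1.2) :=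
    (m1.mul (Complex.continuous_conj.measurable.comp m2)).stronglyMeasurable
  exact (m3.integral_prod_right' (ν := volume)).measurable

variable (ε R α₁ α₂ α₃ f₁ f₂ f₃) in
/-- the asymmetric half of the integrand -/
noncomputable def Ps (q : ℝ × ℝ) : ℂ :=
  uu ε R q.1 * oo ε R q.2 * JJ α₁ α₂ α₃ f₁ f₂ f₃ q * uu (ε / 2) (R / 2) (q.2 - q.1)

theorem alg {a b : ℂ} (ha : a ≠ 0) (hb : b ≠ 0) (hab : b - a ≠ 0) (J : ℂ) :
    a⁻¹ * b⁻¹ * J = a⁻¹ * 1 * J * (b - a)⁻¹ + b⁻¹ * 1 * J * (a - b)⁻¹ := by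
  have hab' : a - b ≠ 0 := fun h => hab (by linear_combination -h)
  have e : (a - b)⁻¹ = -(b - a)⁻¹ := by rw [← neg_sub b a, inv_neg]
  rw [e]
  field_simp
  ring

theorem split (hε : 0 < ε) (q : ℝ × ℝ) :
    {q : ℝ × ℝ | ε / 2 < |q.2 - q.1| ∧ |q.2 - q.1| < R / 2}.indicator
        (Ph ε R α₁ α₂ α₃ f₁ f₂ f₃) q
      = Ps ε R α₁ α₂ α₃ f₁ f₂ f₃ q + conj (Ps ε R α₁ α₂ α₃ f₁ f₂ f₃ q.swap) := by
  unfold Ps Ph
  simp only [Prod.fst_swap, Prod.snd_swap, map_mul, uu_conj, oo_conj, JJ_conj, RCLike.conj_conj]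
  by_cases hq : ε / 2 < |q.2 - q.1| ∧ |q.2 - q.1| < R / 2
  · rw [indicator_of_mem (by exact hq)]
    have hq' : ε / 2 < |q.1 - q.2| ∧ |q.1 - q.2| < R / 2 := by rwa [abs_sub_comm]
    have e1 : uu (ε / 2) (R / 2) (q.2 - q.1) = (((q.2 - q.1 : ℝ) : ℂ))⁻¹ :=
      indicator_of_mem (by exact hq) _
    have e2 : uu (ε / 2) (R / 2) (q.1 - q.2) = (((q.1 - q.2 : ℝ) : ℂ))⁻¹ :=
      indicator_of_mem (by exact hq') _
    rw [e1, e2]
    by_cases h1 : ε < |q.1| ∧ |q.1| < R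
    · by_cases h2 : ε < |q.2| ∧ |q.2| < R
      · have u1 : uu ε R q.1 = ((q.1 : ℝ) : ℂ)⁻¹ := indicator_of_mem (by exact h1) _
        have u2 : uu ε R q.2 = ((q.2 : ℝ) : ℂ)⁻¹ := indicator_of_mem (by exact h2) _
        have o1 : oo ε R q.1 = 1 := indicator_of_mem (by exact h1) _
        have o2 : oo ε R q.2 = 1 := indicator_of_mem (by exact h2) _
        rw [u1, u2, o1, o2]
        have z1 : ((q.1 : ℝ) : ℂ) ≠ 0 := by
          rw [Complex.ofReal_ne_zero]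
          intro h; rw [h, abs_zero] at h1; linarith [h1.1]
        have z2 : ((q.2 : ℝ) : ℂ) ≠ 0 := by
          rw [Complex.ofReal_ne_zero]
          intro h; rw [h, abs_zero] at h2; linarith [h2.1]
        have z3 : ((q.2 : ℝ) : ℂ) - ((q.1 : ℝ) : ℂ) ≠ 0 := by
          rw [← Complex.ofReal_sub, Complex.ofReal_ne_zero]
          intro h; rw [h, abs_zero] at hq; linarith [hq.1]
        rw [Complex.ofReal_sub, Complex.ofReal_sub]
        exact alg z1 z2 z3 _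
      · have u2 : uu ε R q.2 = 0 := indicator_of_notMem (by exact h2) _
        have o2 : oo ε R q.2 = 0 := indicator_of_notMem (by exact h2) _
        rw [u2, o2]; ring
    · have u1 : uu ε R q.1 = 0 := indicator_of_notMem (by exact h1) _
      have o1 : oo ε R q.1 = 0 := indicator_of_notMem (by exact h1) _
      rw [u1, o1]; ring
  · rw [indicator_of_notMem (by exact hq)]
    have hq' : ¬ (ε / 2 < |q.1 - q.2| ∧ |q.1 - q.2| < R / 2) := by rwa [abs_sub_comm]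
    have e1 : uu (ε / 2) (R / 2) (q.2 - q.1) = 0 := indicator_of_notMem (by exact hq) _
    have e2 : uu (ε / 2) (R / 2) (q.1 - q.2) = 0 := indicator_of_notMem (by exact hq') _
    rw [e1, e2]; ring

theorem Ps_meas (h₁ : Nice f₁) (h₂ : Nice f₂) (h₃ : Nice f₃) :
    Measurable (Ps ε R α₁ α₂ α₃ f₁ f₂ f₃) :=
  ((((uu_meas ε R).comp measurable_fst).mul ((oo_meas ε R).comp measurable_snd)).mul
    (JJ_meas h₁.meas h₂.meas h₃.meas)).mul
    ((uu_meas (ε / 2) (R / 2)).comp (measurable_snd.sub measurable_fst))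

theorem Ps_int (hε : 0 < ε) (h₁ : Nice f₁) (h₂ : Nice f₂) (h₃ : Nice f₃) :
    Integrable (Ps ε R α₁ α₂ α₃ f₁ f₂ f₃) volume := by
  rw [← shear_integrable]
  have hP := PP_nonneg f₁ f₂ f₃
  have hg := ((av_int (a := ε) (b := R) hε).mul_prod
    (av_int (a := ε / 2) (b := R / 2) (by linarith))).const_mul (PP f₁ f₂ f₃)
  rw [← Measure.volume_eq_prod] at hg
  refine hg.mono' ((Ps_meas h₁ h₂ h₃).comp
    (measurable_fst.prodMk (measurable_fst.add measurable_snd))).aestronglyMeasurable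
    (ae_of_all _ fun p => ?_)
  unfold Ps
  rw [norm_mul, norm_mul, norm_mul, uu_norm, uu_norm, add_sub_cancel_left]
  have := JJ_le (α₁ := α₁) (α₂ := α₂) (α₃ := α₃) h₁ h₂ h₃ (p.1, p.1 + p.2)
  have a1 := av_nonneg ε R p.1
  have a2 := av_nonneg (ε / 2) (R / 2) p.2
  have a3 := oo_norm_le ε R (p.1 + p.2)
  calc av ε R p.1 * ‖oo ε R (p.1 + p.2)‖ * ‖JJ α₁ α₂ α₃ f₁ f₂ f₃ (p.1, p.1 + p.2)‖ *
        av (ε / 2) (R / 2) p.2
      ≤ av ε R p.1 * 1 * PP f₁ f₂ f₃ * av (ε / 2) (R / 2) p.2 := by gcongr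
    _ = _ := by ring

/-- the `t`-integral at fixed `h` -/
theorem inner_eq (hε : 0 < ε) (h₁ : Nice f₁) (h₂ : Nice f₂) (h₃ : Nice f₃) (h : ℝ) :
    ∫ t, uu ε R t * JJ α₁ α₂ α₃ f₁ f₂ f₃ (t, t + h)
      = ∫ p, bk ε R α₁ α₂ α₃ (gh f₁ (α₁ * h)) (gh f₂ (α₂ * h)) (gh f₃ (α₃ * h)) p := by
  have hI := bk_int (R := R) (α₁ := α₁) (α₂ := α₂) (α₃ := α₃) hε (h₁.gh (α₁ * h))
    (h₂.gh (α₂ * h)) (h₃.gh (α₃ * h))
  rw [Measure.volume_eq_prod] at hI ⊢
  rw [integral_prod_symm _ hI]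
  congr 1
  funext t
  rw [JJ_eq]
  unfold uu bk
  by_cases ht : ε < |t| ∧ |t| < R
  · rw [indicator_of_mem (by exact ht)]
    simp only [if_pos ht]
    rw [← integral_const_mul]
    congr 1
    funext x
    rw [div_eq_mul_inv]; ring
  · rw [indicator_of_notMem (by exact ht)]
    simp only [if_neg ht]
    simp

theorem inner_le (hε : 0 < ε) (hR : ε < R) (h₁ : Nice f₁) (h₂ : Nice f₂) (h₃ : Nice f₃) {h : ℝ}
    (hh : |h| < R / 2) {C : ℝ} (hC0 : 0 ≤ C)
    (hC : ∀ g₁ g₂ g₃ : ℝ → ℂ, Nice g₁ → Nice g₂ → Nice g₃ →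
      ∀ ε R : ℝ, 0 < ε → ε < R →
        ‖∫ p, bk ε R α₁ α₂ α₃ g₁ g₂ g₃ p‖ ≤ C * ((eLpNorm g₁ 3 volume).toReal *
          (eLpNorm g₂ 3 volume).toReal * (eLpNorm g₃ 3 volume).toReal)) :
    ‖∫ t, uu ε R t * oo ε R (t + h) * JJ α₁ α₂ α₃ f₁ f₂ f₃ (t, t + h)‖
      ≤ (C + 6) * PP f₁ f₂ f₃ := by
  have hR0 : 0 < R := hε.trans hR
  have hP := PP_nonneg f₁ f₂ f₃
  have mJ : Measurable fun t : ℝ => JJ α₁ α₂ α₃ f₁ f₂ f₃ (t, t + h) :=
    (JJ_meas h₁.meas h₂.meas h₃.meas).comp (measurable_id.prodMk (measurable_id.add_const h))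
  have i1 : Integrable (fun t => uu ε R t * JJ α₁ α₂ α₃ f₁ f₂ f₃ (t, t + h)) volume := by
    refine ((av_int (a := ε) (b := R) hε).mul_const (PP f₁ f₂ f₃)).mono'
      ((uu_meas ε R).mul mJ).aestronglyMeasurable (ae_of_all _ fun t => ?_)
    rw [norm_mul, uu_norm]
    exact mul_le_mul_of_nonneg_left (JJ_le h₁ h₂ h₃ _) (av_nonneg _ _ _)
  have mo : Measurable fun t => uu ε R t * oo ε R (t + h) *
      JJ α₁ α₂ α₃ f₁ f₂ f₃ (t, t + h) :=
    ((uu_meas ε R).mul ((oo_meas ε R).comp (measurable_id.add_const h))).mul mJ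
  have i2 : Integrable (fun t => uu ε R t * oo ε R (t + h) *
      JJ α₁ α₂ α₃ f₁ f₂ f₃ (t, t + h)) volume := by
    refine i1.norm.mono' mo.aestronglyMeasurable (ae_of_all _ fun t => ?_)
    rw [norm_mul, norm_mul, norm_mul]
    have := oo_norm_le ε R (t + h)
    calc ‖uu ε R t‖ * ‖oo ε R (t + h)‖ * ‖JJ α₁ α₂ α₃ f₁ f₂ f₃ (t, t + h)‖
        ≤ ‖uu ε R t‖ * 1 * ‖JJ α₁ α₂ α₃ f₁ f₂ f₃ (t, t + h)‖ := by gcongr
      _ = _ := by rw [mul_one]
  have e : ∫ t, uu ε R t * oo ε R (t + h) * JJ α₁ α₂ α₃ f₁ f₂ f₃ (t, t + h)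
      = (∫ t, uu ε R t * JJ α₁ α₂ α₃ f₁ f₂ f₃ (t, t + h)) -
        ∫ t, (uu ε R t * JJ α₁ α₂ α₃ f₁ f₂ f₃ (t, t + h) -
          uu ε R t * oo ε R (t + h) * JJ α₁ α₂ α₃ f₁ f₂ f₃ (t, t + h)) := by
    rw [integral_sub i1 i2]; ring
  rw [e]
  have b1 : ‖∫ t, uu ε R t * JJ α₁ α₂ α₃ f₁ f₂ f₃ (t, t + h)‖ ≤ C * PP f₁ f₂ f₃ := by
    rw [inner_eq hε h₁ h₂ h₃]
    refine (hC _ _ _ (h₁.gh _) (h₂.gh _) (h₃.gh _) ε R hε hR).trans ?_
    exact mul_le_mul_of_nonneg_left (gh3_le h₁ h₂ h₃ _ _ _) hC0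
  have b2 : ‖∫ t, (uu ε R t * JJ α₁ α₂ α₃ f₁ f₂ f₃ (t, t + h) -
      uu ε R t * oo ε R (t + h) * JJ α₁ α₂ α₃ f₁ f₂ f₃ (t, t + h))‖ ≤ 6 * PP f₁ f₂ f₃ := by
    set k : ℝ → ℝ := (Ioo (-R) R).indicator fun _ : ℝ => 2 / R with hkdef
    set l : ℝ → ℝ := (Icc (-h - ε) (-h + ε)).indicator fun _ : ℝ => ε⁻¹ with hldef
    have hk : Integrable k volume :=
      (integrable_indicator_iff measurableSet_Ioo).2
        (integrableOn_const (by rw [Real.volume_Ioo]; exact ENNReal.ofReal_ne_top))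
    have hl : Integrable l volume :=
      (integrable_indicator_iff measurableSet_Icc).2
        (integrableOn_const (by rw [Real.volume_Icc]; exact ENNReal.ofReal_ne_top))
    have hk0 : ∀ t, 0 ≤ k t := fun t => indicator_nonneg (fun _ _ => by positivity) _
    have hl0 : ∀ t, 0 ≤ l t := fun t => indicator_nonneg (fun _ _ => by positivity) _
    have hk1 : ∫ h, k h = 4 := by
      rw [hkdef, integral_indicator measurableSet_Ioo, setIntegral_const, measureReal_def,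
        Real.volume_Ioo, ENNReal.toReal_ofReal (by linarith), smul_eq_mul]
      field_simp
      ring
    have hl1 : ∫ h, l h = 2 := by
      rw [hldef, integral_indicator measurableSet_Icc, setIntegral_const, measureReal_def,
        Real.volume_Icc, ENNReal.toReal_ofReal (by linarith), smul_eq_mul]
      field_simp
      ring
    refine (norm_integral_le_of_norm_le ((hl.add hk).mul_const (PP f₁ f₂ f₃))
      (ae_of_all _ fun t => ?_)).trans (le_of_eq ?_)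
    · simp only [Pi.add_apply]
      have e2 : uu ε R t * JJ α₁ α₂ α₃ f₁ f₂ f₃ (t, t + h) -
          uu ε R t * oo ε R (t + h) * JJ α₁ α₂ α₃ f₁ f₂ f₃ (t, t + h)
          = uu ε R t * (1 - oo ε R (t + h)) * JJ α₁ α₂ α₃ f₁ f₂ f₃ (t, t + h) := by ring
      rw [e2, norm_mul]
      have hJ := JJ_le (α₁ := α₁) (α₂ := α₂) (α₃ := α₃) h₁ h₂ h₃ (t, t + h)
      have hlk : 0 ≤ l t + k t := add_nonneg (hl0 t) (hk0 t)
      refine mul_le_mul ?_ hJ (norm_nonneg _) hlk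
      rw [norm_mul, uu_norm]
      by_cases ht : ε < |t| ∧ |t| < R
      · have ea : av ε R t = |t|⁻¹ := indicator_of_mem (by exact ht) _
        by_cases hth : ε < |t + h| ∧ |t + h| < R
        · have eo : oo ε R (t + h) = 1 := indicator_of_mem (by exact hth) _
          rw [eo, sub_self, norm_zero, mul_zero]; exact hlk
        · have eo : oo ε R (t + h) = 0 := indicator_of_notMem (by exact hth) _
          rw [eo, sub_zero, norm_one, mul_one, ea]
          by_cases hc : |t + h| ≤ ε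
          · have hm : t ∈ Icc (-h - ε) (-h + ε) := by
              have := abs_le.1 hc
              constructor <;> linarith [this.1, this.2]
            have : l t = ε⁻¹ := indicator_of_mem hm _
            rw [this]
            have := inv_anti₀ hε ht.1.le
            linarith [hk0 t]
          · push Not at hc
            have h5 : R ≤ |t + h| := by
              by_contra hcon
              push Not at hcon
              exact hth ⟨hc, hcon⟩
            have h6 : |t + h| ≤ |t| + |h| := abs_add_le _ _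
            have h7 : R / 2 ≤ |t| := by linarith
            have hm : t ∈ Ioo (-R) R := abs_lt.1 ht.2
            have : k t = 2 / R := indicator_of_mem hm _
            rw [this]
            have h8 := inv_anti₀ (by positivity : 0 < R / 2) h7
            rw [inv_div] at h8
            linarith [hl0 t]
      · have ea : av ε R t = 0 := indicator_of_notMem (by exact ht) _
        rw [ea, zero_mul]; exact hlk
    · simp only [Pi.add_apply]
      rw [integral_mul_const, integral_add hl hk, hk1, hl1]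
      norm_num
  calc _ ≤ C * PP f₁ f₂ f₃ + 6 * PP f₁ f₂ f₃ := (norm_sub_le _ _).trans (add_le_add b1 b2)
    _ = _ := by ring

/-- the middle part -/
theorem part1 (hε : 0 < ε) (hR : ε < R) (h₁ : Nice f₁) (h₂ : Nice f₂) (h₃ : Nice f₃)
    {C : ℝ} (hC0 : 0 ≤ C)
    (hC : ∀ g₁ g₂ g₃ : ℝ → ℂ, Nice g₁ → Nice g₂ → Nice g₃ →
      ∀ ε R : ℝ, 0 < ε → ε < R →
        ‖∫ p, bk ε R α₁ α₂ α₃ g₁ g₂ g₃ p‖ ≤ C * ((eLpNorm g₁ 3 volume).toReal *
          (eLpNorm g₂ 3 volume).toReal * (eLpNorm g₃ 3 volume).toReal)) :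
    ‖∫ q, {q : ℝ × ℝ | ε / 2 < |q.2 - q.1| ∧ |q.2 - q.1| < R / 2}.indicator
        (Ph ε R α₁ α₂ α₃ f₁ f₂ f₃) q‖
      ≤ 2 * ((C + 6) * PP f₁ f₂ f₃ * (2 * Real.log (R / ε))) := by
  have hP := PP_nonneg f₁ f₂ f₃
  have hI := Ps_int (R := R) (α₁ := α₁) (α₂ := α₂) (α₃ := α₃) hε h₁ h₂ h₃
  have hs : MeasurePreserving (Prod.swap : ℝ × ℝ → ℝ × ℝ) volume volume :=
    Measure.measurePreserving_swap
  have hI2 : Integrable (fun q : ℝ × ℝ => Ps ε R α₁ α₂ α₃ f₁ f₂ f₃ q.swap) volume :=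
    hs.integrable_comp_of_integrable hI
  have hI3 : Integrable (fun q : ℝ × ℝ => conj (Ps ε R α₁ α₂ α₃ f₁ f₂ f₃ q.swap)) volume := by
    refine hI2.norm.mono' ?_ (ae_of_all _ fun q => by rw [RCLike.norm_conj])
    exact (Complex.continuous_conj.measurable.comp ((Ps_meas h₁ h₂ h₃).comp
      measurable_swap)).aestronglyMeasurable
  have e1 : ∫ q, {q : ℝ × ℝ | ε / 2 < |q.2 - q.1| ∧ |q.2 - q.1| < R / 2}.indicator
        (Ph ε R α₁ α₂ α₃ f₁ f₂ f₃) q
      = (∫ q, Ps ε R α₁ α₂ α₃ f₁ f₂ f₃ q) + conj (∫ q, Ps ε R α₁ α₂ α₃ f₁ f₂ f₃ q) := by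
    simp only [split hε]
    rw [integral_add hI hI3, integral_conj]
    congr 2
    exact integral_prod_swap (μ := (volume : Measure ℝ)) (ν := (volume : Measure ℝ))
      (Ps ε R α₁ α₂ α₃ f₁ f₂ f₃)
  have e2 : ‖∫ q, Ps ε R α₁ α₂ α₃ f₁ f₂ f₃ q‖
      ≤ (C + 6) * PP f₁ f₂ f₃ * (2 * Real.log (R / ε)) := by
    rw [← shear_integral]
    have hI' := shear_integrable.2 hI
    rw [Measure.volume_eq_prod] at hI' ⊢
    rw [integral_prod_symm _ hI']
    have hlog : ∫ h, av (ε / 2) (R / 2) h = 2 * Real.log (R / ε) := by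
      rw [av_integral (by linarith) (by linarith)]
      congr 2
      field_simp
    have hg := (av_int (a := ε / 2) (b := R / 2) (by linarith)).const_mul
      ((C + 6) * PP f₁ f₂ f₃)
    refine (norm_integral_le_of_norm_le hg (ae_of_all _ fun h => ?_)).trans (le_of_eq ?_)
    · have e3 : ∀ t : ℝ, Ps ε R α₁ α₂ α₃ f₁ f₂ f₃ (t, t + h)
          = uu ε R t * oo ε R (t + h) * JJ α₁ α₂ α₃ f₁ f₂ f₃ (t, t + h) *
            uu (ε / 2) (R / 2) h := by
        intro t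
        unfold Ps
        simp only [add_sub_cancel_left]
      simp only [e3]
      rw [integral_mul_const, norm_mul, uu_norm]
      by_cases hh : ε / 2 < |h| ∧ |h| < R / 2
      · exact mul_le_mul_of_nonneg_right (inner_le hε hR h₁ h₂ h₃ hh.2 hC0 hC)
          (av_nonneg _ _ _)
      · have : av (ε / 2) (R / 2) h = 0 := indicator_of_notMem (by exact hh) _
        rw [this, mul_zero, mul_zero]
    · rw [integral_const_mul, hlog]
  rw [e1]
  refine (norm_add_le _ _).trans ?_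
  rw [RCLike.norm_conj]
  linarith

end Vale.Agent.P141.H97
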