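import Vale.Agent.P141.H97.BHT

/-!
# Bounded integrable functions; the bilinear form for them; Hoelder bounds
-/

namespace Vale.Agent.P141.H97

open MeasureTheory Set Filter Topology
open scoped ENNReal ComplexConjugate

/-- measurable, bounded and integrable -/
structure Nice (f : ℝ → ℂ) : Prop where
  meas : Measurable f
  bdd : ∃ B : ℝ, ∀ x, ‖f x‖ ≤ B
  int : Integrable f

theorem Nice.shift {f : ℝ → ℂ} (h : Nice f) (s : ℝ) : Nice fun u => f (u - s) :=
  ⟨h.meas.comp (measurable_id.sub_const s), h.bdd.imp fun _ hB x => hB _,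
    h.int.comp_sub_right s⟩

theorem Nice.memLp {f : ℝ → ℂ} (h : Nice f) {p : ℝ≥0∞} (h1 : 1 ≤ p) (ht : p ≠ ∞) :
    MemLp f p volume := by
  obtain ⟨B, hB⟩ := h.bdd
  have hB0 : 0 ≤ B := (norm_nonneg _).trans (hB 0)
  have hp1 : 1 ≤ p.toReal := by
    have := ENNReal.toReal_mono ht h1
    simpa using this
  refine (integrable_norm_rpow_iff h.meas.aestronglyMeasurable (by positivity) ht).1 ?_
  refine (h.int.norm.const_mul (B ^ (p.toReal - 1))).mono' ?_ (ae_of_all _ fun x => ?_)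
  · exact (h.meas.norm.pow_const _).aestronglyMeasurable
  · rw [Real.norm_of_nonneg (by positivity)]
    rcases eq_or_lt_of_le (norm_nonneg (f x)) with h0 | h0
    · rw [← h0, Real.zero_rpow (by linarith)]; simp
    · have : ‖f x‖ ^ p.toReal = ‖f x‖ ^ (p.toReal - 1) * ‖f x‖ := by
        rw [← Real.rpow_add_one h0.ne']; ring_nf
      rw [this]
      apply mul_le_mul_of_nonneg_right _ h0.le
      exact Real.rpow_le_rpow h0.le (hB x) (by linarith)

/-- the product `f(u) conj f(u - s)` -/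
noncomputable def gh (f : ℝ → ℂ) (s : ℝ) (u : ℝ) : ℂ := f u * conj (f (u - s))

theorem Nice.gh {f : ℝ → ℂ} (h : Nice f) (s : ℝ) : Nice (gh f s) := by
  obtain ⟨B, hB⟩ := h.bdd
  have hB0 : 0 ≤ B := (norm_nonneg _).trans (hB 0)
  have hm : Measurable fun u => conj (f (u - s)) :=
    Complex.continuous_conj.measurable.comp (h.meas.comp (measurable_id.sub_const s))
  refine ⟨h.meas.mul hm, ⟨B * B, fun x => ?_⟩, ?_⟩
  · rw [Vale.Agent.P141.H97.gh, norm_mul, RCLike.norm_conj]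
    exact mul_le_mul (hB _) (hB _) (norm_nonneg _) hB0
  · refine (h.int.norm.mul_const B).mono' (h.meas.mul hm).aestronglyMeasurable
      (ae_of_all _ fun x => ?_)
    rw [Vale.Agent.P141.H97.gh, norm_mul, RCLike.norm_conj]
    exact mul_le_mul_of_nonneg_left (hB _) (norm_nonneg _)

theorem holder663 : ENNReal.HolderTriple 6 6 3 := ⟨by
  rw [← ENNReal.toReal_eq_toReal_iff' (by simp) (by simp)]
  rw [ENNReal.toReal_add (by simp) (by simp)]
  norm_num⟩

theorem holder33 : ENNReal.HolderTriple 3 3 (3 / 2) := ⟨by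
  rw [← ENNReal.toReal_eq_toReal_iff' (by simp) (by simp)]
  rw [ENNReal.toReal_add (by simp) (by simp)]
  norm_num⟩

theorem holder31 : ENNReal.HolderTriple 3 (3 / 2) 1 := ⟨by
  rw [← ENNReal.toReal_eq_toReal_iff' (by simp) (by simp)]
  rw [ENNReal.toReal_add (by simp) (by simp)]
  norm_num⟩

theorem eLpNorm_shift {f : ℝ → ℂ} (h : Measurable f) (s : ℝ) (p : ℝ≥0∞) :
    eLpNorm (fun u => f (u - s)) p volume = eLpNorm f p volume :=
  eLpNorm_comp_measurePreserving (f := fun u : ℝ => u - s) h.aestronglyMeasurable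
    (measurePreserving_sub_right volume s)

theorem gh_norm {f : ℝ → ℂ} (h : Measurable f) (s : ℝ) :
    eLpNorm (gh f s) 3 volume ≤ eLpNorm f 6 volume * eLpNorm f 6 volume := by
  have := holder663
  have hm : Measurable fun u => conj (f (u - s)) :=
    Complex.continuous_conj.measurable.comp (h.comp (measurable_id.sub_const s))
  have h1 := eLpNorm_smul_le_mul_eLpNorm (p := 6) (q := 6) (r := 3) (μ := volume)
    (f := fun u => conj (f (u - s))) (φ := f) hm.aestronglyMeasurable h.aestronglyMeasurable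
  have h2 : eLpNorm (fun u => conj (f (u - s))) 6 volume = eLpNorm f 6 volume := by
    rw [← eLpNorm_shift h s 6]
    apply eLpNorm_congr_norm_ae
    exact ae_of_all _ fun u => by rw [RCLike.norm_conj]
  rw [h2] at h1
  exact h1

/-- Hoelder with three exponents `3`, shifted arguments -/
theorem holder3 {g₁ g₂ g₃ : ℝ → ℂ} (h₁ : Measurable g₁) (h₂ : Measurable g₂)
    (h₃ : Measurable g₃) (s₁ s₂ s₃ : ℝ) :
    ∫⁻ x, ‖g₁ (x - s₁) * g₂ (x - s₂) * g₃ (x - s₃)‖ₑ ≤
      eLpNorm g₁ 3 volume * (eLpNorm g₂ 3 volume * eLpNorm g₃ 3 volume) := by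
  have := holder33
  have := holder31
  have m₁ : Measurable fun x => g₁ (x - s₁) := h₁.comp (measurable_id.sub_const _)
  have m₂ : Measurable fun x => g₂ (x - s₂) := h₂.comp (measurable_id.sub_const _)
  have m₃ : Measurable fun x => g₃ (x - s₃) := h₃.comp (measurable_id.sub_const _)
  have h1 := eLpNorm_smul_le_mul_eLpNorm (p := 3) (q := 3) (r := 3 / 2) (μ := volume)
    (f := fun x => g₃ (x - s₃)) (φ := fun x => g₂ (x - s₂)) m₃.aestronglyMeasurable
    m₂.aestronglyMeasurable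
  have h2 := eLpNorm_smul_le_mul_eLpNorm (p := 3) (q := 3 / 2) (r := 1) (μ := volume)
    (f := (fun x => g₂ (x - s₂)) • (fun x => g₃ (x - s₃))) (φ := fun x => g₁ (x - s₁))
    (m₂.mul m₃).aestronglyMeasurable m₁.aestronglyMeasurable
  rw [eLpNorm_shift h₂, eLpNorm_shift h₃] at h1
  rw [eLpNorm_shift h₁, eLpNorm_one_eq_lintegral_enorm] at h2
  refine le_trans (le_of_eq ?_) (h2.trans (mul_le_mul_right h1 _))
  apply lintegral_congr
  intro x
  simp [mul_assoc]

/-- a translate of an integrable function times an integrable function of the parameter -/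
theorem int_shift {Y : Type*} [MeasurableSpace Y] {ν : Measure Y} [SFinite ν] {f : ℝ → ℂ}
    (hf : Nice f) {s : Y → ℝ} (hs : Measurable s) {ψ : Y → ℝ} (hψ : Integrable ψ ν)
    (hψm : Measurable ψ) :
    Integrable (fun p : ℝ × Y => ‖f (p.1 - s p.2)‖ * ψ p.2) ((volume : Measure ℝ).prod ν) := by
  have hm : Measurable fun p : ℝ × Y => ‖f (p.1 - s p.2)‖ * ψ p.2 :=
    ((hf.meas.comp (measurable_fst.sub (hs.comp measurable_snd))).norm).mul
      (hψm.comp measurable_snd)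
  rw [integrable_prod_iff' hm.aestronglyMeasurable]
  refine ⟨ae_of_all _ fun y => ((hf.int.comp_sub_right (s y)).norm).mul_const (ψ y), ?_⟩
  have h : ∀ y, ∫ x, ‖‖f (x - s y)‖ * ψ y‖ = (∫ x, ‖f x‖) * ‖ψ y‖ := by
    intro y
    simp only [norm_mul, norm_norm]
    rw [integral_mul_const, integral_sub_right_eq_self (fun x => ‖f x‖) (s y)]
  simp only [h]
  exact hψ.norm.const_mul _

theorem setA_meas (ε R : ℝ) : MeasurableSet {t : ℝ | ε < |t| ∧ |t| < R} :=
  (measurableSet_lt measurable_const measurable_abs).inter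
    (measurableSet_lt measurable_abs measurable_const)

theorem setA_sub (ε R : ℝ) : {t : ℝ | ε < |t| ∧ |t| < R} ⊆ Ioo (-R) R :=
  fun _ ht => abs_lt.1 ht.2

theorem bk_meas {ε R α₁ α₂ α₃ : ℝ} {g₁ g₂ g₃ : ℝ → ℂ} (h₁ : Measurable g₁) (h₂ : Measurable g₂)
    (h₃ : Measurable g₃) : Measurable (bk ε R α₁ α₂ α₃ g₁ g₂ g₃) := by
  unfold bk
  refine Measurable.ite ((setA_meas ε R).preimage measurable_snd) ?_ measurable_const
  have m : ∀ α : ℝ, Measurable fun p : ℝ × ℝ => p.1 - α * p.2 := fun α =>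
    measurable_fst.sub (measurable_const.mul measurable_snd)
  exact (((h₁.comp (m α₁)).mul (h₂.comp (m α₂))).mul (h₃.comp (m α₃))).div
    (Complex.measurable_ofReal.comp measurable_snd)

theorem bk_int {ε R α₁ α₂ α₃ : ℝ} (hε : 0 < ε) {g₁ g₂ g₃ : ℝ → ℂ} (h₁ : Nice g₁) (h₂ : Nice g₂)
    (h₃ : Nice g₃) : Integrable (bk ε R α₁ α₂ α₃ g₁ g₂ g₃) volume := by
  obtain ⟨B₂, hB₂⟩ := h₂.bdd
  obtain ⟨B₃, hB₃⟩ := h₃.bdd
  have hB₂0 : 0 ≤ B₂ := (norm_nonneg _).trans (hB₂ 0)
  have hB₃0 : 0 ≤ B₃ := (norm_nonneg _).trans (hB₃ 0)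
  have hψ : Integrable ((Ioo (-R) R).indicator fun _ : ℝ => B₂ * B₃ / ε) volume :=
    (integrable_indicator_iff measurableSet_Ioo).2
      (integrableOn_const (by rw [Real.volume_Ioo]; exact ENNReal.ofReal_ne_top))
  have hψm : Measurable ((Ioo (-R) R).indicator fun _ : ℝ => B₂ * B₃ / ε) :=
    measurable_const.indicator measurableSet_Ioo
  have key := int_shift (ν := (volume : Measure ℝ)) h₁ (s := fun t => α₁ * t)
    (measurable_const.mul measurable_id) hψ hψm
  rw [← Measure.volume_eq_prod] at key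
  refine key.mono' (bk_meas h₁.meas h₂.meas h₃.meas).aestronglyMeasurable
    (ae_of_all _ fun p => ?_)
  unfold bk
  by_cases hA : ε < |p.2| ∧ |p.2| < R
  · rw [if_pos hA, indicator_of_mem (setA_sub ε R hA), norm_div, norm_mul, norm_mul,
      Complex.norm_real, Real.norm_eq_abs]
    have h4 : 0 < |p.2| := hε.trans hA.1
    calc ‖g₁ (p.1 - α₁ * p.2)‖ * ‖g₂ (p.1 - α₂ * p.2)‖ * ‖g₃ (p.1 - α₃ * p.2)‖ / |p.2|
        ≤ ‖g₁ (p.1 - α₁ * p.2)‖ * B₂ * B₃ / ε := by
          have := hB₂ (p.1 - α₂ * p.2)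
          have := hB₃ (p.1 - α₃ * p.2)
          have := hA.1.le
          gcongr
      _ = _ := by ring
  · rw [if_neg hA, norm_zero]
    have : 0 ≤ (Ioo (-R) R).indicator (fun _ : ℝ => B₂ * B₃ / ε) p.2 :=
      indicator_nonneg (fun _ _ => by positivity) _
    positivity

/-- the truncated bilinear Hilbert form for bounded integrable functions -/
theorem bht (α₁ α₂ α₃ : ℝ) (h12 : α₁ ≠ α₂) (h23 : α₂ ≠ α₃) :
    ∃ C : ℝ, 0 ≤ C ∧ ∀ g₁ g₂ g₃ : ℝ → ℂ, Nice g₁ → Nice g₂ → Nice g₃ →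
      ∀ ε R : ℝ, 0 < ε → ε < R →
        ‖∫ p, bk ε R α₁ α₂ α₃ g₁ g₂ g₃ p‖ ≤ C * ((eLpNorm g₁ 3 volume).toReal *
          (eLpNorm g₂ 3 volume).toReal * (eLpNorm g₃ 3 volume).toReal) := by
  obtain ⟨C, hC0, hC⟩ := bht_cs α₁ α₂ α₃ h12 h23
  refine ⟨C, hC0, fun g₁ g₂ g₃ h₁ h₂ h₃ ε R hε hR => ?_⟩
  have l₁ := h₁.memLp (p := 3) (by norm_num) (by norm_num)
  have l₂ := h₂.memLp (p := 3) (by norm_num) (by norm_num)
  have l₃ := h₃.memLp (p := 3) (by norm_num) (by norm_num)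
  set t : ℕ → ℝ → ℂ := fun n => (Icc (-(n : ℝ)) n).indicator g₂ with ht
  have hbd : ∀ n, ‖∫ p, bk ε R α₁ α₂ α₃ g₁ (t n) g₃ p‖ ≤ C * ((eLpNorm g₁ 3 volume).toReal *
      (eLpNorm g₂ 3 volume).toReal * (eLpNorm g₃ 3 volume).toReal) := by
    intro n
    have hle : eLpNorm (t n) 3 volume ≤ eLpNorm g₂ 3 volume := eLpNorm_indicator_le _
    have hl : MemLp (t n) 3 volume := l₂.indicator measurableSet_Icc
    refine (hC g₁ (t n) g₃ h₁.meas (h₂.meas.indicator measurableSet_Icc) h₃.meas l₁ hl l₃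
      ⟨n, fun u hu => indicator_of_notMem (fun hc => ?_) _⟩ ε R hε hR).trans ?_
    · exact absurd (abs_le.2 hc) (not_le.2 hu)
    · have := ENNReal.toReal_mono l₂.2.ne hle
      gcongr
  have hlim : Tendsto (fun n => ∫ p, bk ε R α₁ α₂ α₃ g₁ (t n) g₃ p) atTop
      (𝓝 (∫ p, bk ε R α₁ α₂ α₃ g₁ g₂ g₃ p)) := by
    refine tendsto_integral_of_dominated_convergence
      (fun p => ‖bk ε R α₁ α₂ α₃ g₁ g₂ g₃ p‖) (fun n =>
        (bk_meas h₁.meas (h₂.meas.indicator measurableSet_Icc) h₃.meas).aestronglyMeasurable)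
      (bk_int hε h₁ h₂ h₃).norm (fun n => ae_of_all _ fun p => ?_) (ae_of_all _ fun p => ?_)
    · unfold bk
      split_ifs
      · rw [norm_div, norm_mul, norm_mul, norm_div, norm_mul, norm_mul]
        have : ‖t n (p.1 - α₂ * p.2)‖ ≤ ‖g₂ (p.1 - α₂ * p.2)‖ := norm_indicator_le_norm_self _ _
        gcongr
      · simp
    · apply tendsto_const_nhds.congr'
      obtain ⟨m, hm⟩ := exists_nat_ge |p.1 - α₂ * p.2|
      filter_upwards [eventually_ge_atTop m] with n hn
      have h5 : |p.1 - α₂ * p.2| ≤ (n : ℝ) := hm.trans (by exact_mod_cast hn)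
      have h4 : t n (p.1 - α₂ * p.2) = g₂ (p.1 - α₂ * p.2) := by
        rw [ht]
        exact indicator_of_mem (show p.1 - α₂ * p.2 ∈ Icc (-(n : ℝ)) n from abs_le.1 h5) g₂
      unfold bk
      rw [h4]
  exact le_of_tendsto hlim.norm (Eventually.of_forall hbd)

end Vale.Agent.P141.H97
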