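import Vale.Agent.P141.H97.Main

/-!
# The three parts of the plane
-/

namespace Vale.Agent.P141.H97

open MeasureTheory Set Filter Topology
open scoped ENNReal ComplexConjugate

/-- the shear `(t, h) ↦ (t, t + h)` -/
def shear : ℝ × ℝ ≃ᵐ ℝ × ℝ where
  toFun p := (p.1, p.1 + p.2)
  invFun p := (p.1, p.2 - p.1)
  left_inv p := by ext <;> simp
  right_inv p := by ext <;> simp
  measurable_toFun := by
    show Measurable fun p : ℝ × ℝ => (p.1, p.1 + p.2)
    fun_prop
  measurable_invFun := by
    show Measurable fun p : ℝ × ℝ => (p.1, p.2 - p.1)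
    fun_prop

theorem shear_mp : MeasurePreserving shear volume volume :=
  measurePreserving_prod_add (volume : Measure ℝ) (volume : Measure ℝ)

theorem shear_integral {E : Type*} [NormedAddCommGroup E] [NormedSpace ℝ E] (G : ℝ × ℝ → E) :
    ∫ p : ℝ × ℝ, G (p.1, p.1 + p.2) = ∫ q, G q :=
  shear_mp.integral_comp' G

theorem shear_integrable {E : Type*} [NormedAddCommGroup E] {G : ℝ × ℝ → E} :
    Integrable (fun p : ℝ × ℝ => G (p.1, p.1 + p.2)) volume ↔ Integrable G volume :=
  shear_mp.integrable_comp_emb shear.measurableEmbedding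

variable {ε R α₁ α₂ α₃ : ℝ} {f₁ f₂ f₃ : ℝ → ℂ}

/-- near the diagonal -/
theorem part0 (hε : 0 < ε) (hR : ε < R) (h₁ : Nice f₁) (h₂ : Nice f₂) (h₃ : Nice f₃) :
    ‖∫ q, {q : ℝ × ℝ | |q.2 - q.1| ≤ ε / 2}.indicator (Ph ε R α₁ α₂ α₃ f₁ f₂ f₃) q‖
      ≤ PP f₁ f₂ f₃ * (2 * Real.log (R / ε)) := by
  rw [← shear_integral]
  have hP := PP_nonneg f₁ f₂ f₃
  have hk : Integrable ((Icc (-(ε / 2)) (ε / 2)).indicator fun _ : ℝ => ε⁻¹) volume :=
    (integrable_indicator_iff measurableSet_Icc).2
      (integrableOn_const (by rw [Real.volume_Icc]; exact ENNReal.ofReal_ne_top))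
  have hk1 : ∫ h, (Icc (-(ε / 2)) (ε / 2)).indicator (fun _ : ℝ => ε⁻¹) h = 1 := by
    rw [integral_indicator measurableSet_Icc, setIntegral_const, measureReal_def, Real.volume_Icc,
      ENNReal.toReal_ofReal (by linarith), smul_eq_mul]
    field_simp
    ring
  have hg := ((av_int (a := ε) (b := R) hε).mul_prod hk).const_mul (PP f₁ f₂ f₃)
  rw [← Measure.volume_eq_prod] at hg
  refine (norm_integral_le_of_norm_le hg (ae_of_all _ fun p => ?_)).trans (le_of_eq ?_)
  · by_cases hp : |p.1 + p.2 - p.1| ≤ ε / 2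
    · have hp' : p.2 ∈ Icc (-(ε / 2)) (ε / 2) := by
        rw [add_sub_cancel_left] at hp; exact abs_le.1 hp
      rw [indicator_of_mem (by exact hp), indicator_of_mem hp']
      refine (Ph_le h₁ h₂ h₃ _).trans ?_
      apply mul_le_mul_of_nonneg_left _ hP
      apply mul_le_mul_of_nonneg_left _ (av_nonneg _ _ _)
      unfold av
      by_cases ht : p.1 + p.2 ∈ {t : ℝ | ε < |t| ∧ |t| < R}
      · rw [indicator_of_mem ht]
        exact inv_anti₀ hε ht.1.le
      · rw [indicator_of_notMem ht]
        positivity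
    · rw [indicator_of_notMem (by exact hp), norm_zero]
      have := av_nonneg ε R p.1
      have : 0 ≤ (Icc (-(ε / 2)) (ε / 2)).indicator (fun _ : ℝ => ε⁻¹) p.2 :=
        indicator_nonneg (fun _ _ => by positivity) _
      positivity
  · rw [integral_const_mul, Measure.volume_eq_prod, integral_prod_mul (fun t => av ε R t)
      ((Icc (-(ε / 2)) (ε / 2)).indicator fun _ : ℝ => ε⁻¹), hk1, av_integral hε hR, mul_one]

/-- far from the diagonal -/
theorem part2 (hε : 0 < ε) (hR : ε < R) (h₁ : Nice f₁) (h₂ : Nice f₂) (h₃ : Nice f₃) :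
    ‖∫ q, {q : ℝ × ℝ | R / 2 ≤ |q.2 - q.1|}.indicator (Ph ε R α₁ α₂ α₃ f₁ f₂ f₃) q‖
      ≤ PP f₁ f₂ f₃ * (32 * Real.log (R / ε)) := by
  have hR0 : 0 < R := hε.trans hR
  have hP := PP_nonneg f₁ f₂ f₃
  set k : ℝ → ℝ := (Ioo (-R) R).indicator fun _ : ℝ => 4 / R with hkdef
  have hk : Integrable k volume :=
    (integrable_indicator_iff measurableSet_Ioo).2
      (integrableOn_const (by rw [Real.volume_Ioo]; exact ENNReal.ofReal_ne_top))
  have hk0 : ∀ t, 0 ≤ k t := fun t => indicator_nonneg (fun _ _ => by positivity) _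
  have hk1 : ∫ h, k h = 8 := by
    rw [hkdef, integral_indicator measurableSet_Ioo, setIntegral_const, measureReal_def,
      Real.volume_Ioo, ENNReal.toReal_ofReal (by linarith), smul_eq_mul]
    field_simp
    ring
  have i1 := (av_int (a := ε) (b := R) hε).mul_prod hk
  have i2 := hk.mul_prod (av_int (a := ε) (b := R) hε)
  rw [← Measure.volume_eq_prod] at i1 i2
  have hg := (i1.add i2).const_mul (PP f₁ f₂ f₃)
  have hle : ∀ t, R / 4 ≤ |t| → av ε R t ≤ k t := by
    intro t ht
    unfold av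
    by_cases h : t ∈ {t : ℝ | ε < |t| ∧ |t| < R}
    · rw [indicator_of_mem h, hkdef, indicator_of_mem (setA_sub ε R h)]
      calc |t|⁻¹ ≤ (R / 4)⁻¹ := inv_anti₀ (by positivity) ht
        _ = 4 / R := by rw [inv_div]
    · rw [indicator_of_notMem h]; exact hk0 t
  refine (norm_integral_le_of_norm_le hg (ae_of_all _ fun q => ?_)).trans (le_of_eq ?_)
  · have a1 := av_nonneg ε R q.1
    have a2 := av_nonneg ε R q.2
    have b1 := hk0 q.1
    have b2 := hk0 q.2
    by_cases hq : R / 2 ≤ |q.2 - q.1|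
    · rw [indicator_of_mem (by exact hq)]
      refine (Ph_le h₁ h₂ h₃ _).trans (mul_le_mul_of_nonneg_left ?_ hP)
      simp only [Pi.add_apply]
      have h3 : |q.2 - q.1| ≤ |q.2| + |q.1| := abs_sub _ _
      rcases le_total (R / 4) |q.2| with h | h
      · have := hle q.2 h
        nlinarith [mul_le_mul_of_nonneg_left this a1, mul_nonneg b1 a2]
      · have h4 : R / 4 ≤ |q.1| := by linarith
        have := hle q.1 h4
        nlinarith [mul_le_mul_of_nonneg_right this a2, mul_nonneg a1 b2]
    · rw [indicator_of_notMem (by exact hq), norm_zero]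
      simp only [Pi.add_apply]
      positivity
  · simp only [Pi.add_apply]
    rw [integral_const_mul, integral_add i1 i2, Measure.volume_eq_prod,
      integral_prod_mul (fun t => av ε R t) k, integral_prod_mul k (fun t => av ε R t), hk1,
      av_integral hε hR]
    ring

end Vale.Agent.P141.H97
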