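import Vale.Agent.P141.H97.Mid

/-!
# The `L²` bound with the square root of the logarithm
-/

namespace Vale.Agent.P141.H97

open MeasureTheory Set Filter Topology
open scoped ENNReal ComplexConjugate

theorem three (ε R : ℝ) (hR : ε < R) (F : ℝ × ℝ → ℂ) (q : ℝ × ℝ) :
    F q = {q : ℝ × ℝ | |q.2 - q.1| ≤ ε / 2}.indicator F q +
      ({q : ℝ × ℝ | ε / 2 < |q.2 - q.1| ∧ |q.2 - q.1| < R / 2}.indicator F q +
        {q : ℝ × ℝ | R / 2 ≤ |q.2 - q.1|}.indicator F q) := by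
  rcases le_or_gt |q.2 - q.1| (ε / 2) with h | h
  · rw [indicator_of_mem (by exact h),
      indicator_of_notMem (by simp only [mem_ofPred_eq, not_and_or, not_lt]; exact Or.inl h),
      indicator_of_notMem (by simp only [mem_ofPred_eq, not_le]; linarith)]
    simp
  · rw [indicator_of_notMem (by simp only [mem_ofPred_eq, not_le]; exact h)]
    rcases lt_or_ge |q.2 - q.1| (R / 2) with h' | h'
    · rw [indicator_of_mem (by exact ⟨h, h'⟩),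
        indicator_of_notMem (by simp only [mem_ofPred_eq, not_le]; exact h')]
      simp
    · rw [indicator_of_notMem (by simp only [mem_ofPred_eq, not_and_or, not_lt]; exact Or.inr h'),
        indicator_of_mem (by exact h')]
      simp

/-- **Main bound**, arbitrary slopes, bounded integrable functions. -/
theorem main (α₁ α₂ α₃ : ℝ) (h12 : α₁ ≠ α₂) (h23 : α₂ ≠ α₃) :
    ∃ C : ℝ, 0 ≤ C ∧ ∀ f₁ f₂ f₃ : ℝ → ℂ, Nice f₁ → Nice f₂ → Nice f₃ →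
      ∀ ε R : ℝ, 0 < ε → ε < R →
        ∫ x, ‖TT ε R α₁ α₂ α₃ f₁ f₂ f₃ x‖ ^ 2 ≤ C * Real.log (R / ε) * PP f₁ f₂ f₃ := by
  obtain ⟨C, hC0, hC⟩ := bht α₁ α₂ α₃ h12 h23
  refine ⟨4 * C + 58, by positivity, fun f₁ f₂ f₃ h₁ h₂ h₃ ε R hε hR => ?_⟩
  have hI := Ph_int (R := R) (α₁ := α₁) (α₂ := α₂) (α₃ := α₃) hε h₁ h₂ h₃
  have habs : Measurable fun q : ℝ × ℝ => |q.2 - q.1| :=
    measurable_abs.comp (measurable_snd.sub measurable_fst)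
  have m0 : MeasurableSet {q : ℝ × ℝ | |q.2 - q.1| ≤ ε / 2} :=
    measurableSet_le habs measurable_const
  have m1 : MeasurableSet {q : ℝ × ℝ | ε / 2 < |q.2 - q.1| ∧ |q.2 - q.1| < R / 2} :=
    (measurableSet_lt measurable_const habs).inter (measurableSet_lt habs measurable_const)
  have m2 : MeasurableSet {q : ℝ × ℝ | R / 2 ≤ |q.2 - q.1|} :=
    measurableSet_le measurable_const habs
  have e : ∫ q, Ph ε R α₁ α₂ α₃ f₁ f₂ f₃ q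
      = (∫ q, {q : ℝ × ℝ | |q.2 - q.1| ≤ ε / 2}.indicator (Ph ε R α₁ α₂ α₃ f₁ f₂ f₃) q) +
        ((∫ q, {q : ℝ × ℝ | ε / 2 < |q.2 - q.1| ∧ |q.2 - q.1| < R / 2}.indicator
          (Ph ε R α₁ α₂ α₃ f₁ f₂ f₃) q) +
        ∫ q, {q : ℝ × ℝ | R / 2 ≤ |q.2 - q.1|}.indicator (Ph ε R α₁ α₂ α₃ f₁ f₂ f₃) q) := by
    have a1 := integral_add (hI.indicator m1) (hI.indicator m2)
    have a0 := integral_add (hI.indicator m0) ((hI.indicator m1).add (hI.indicator m2))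
    simp only [Pi.add_apply] at a0 a1
    rw [← a1, ← a0]
    exact integral_congr_ae (ae_of_all _ fun q => three ε R hR _ q)
  have p0 := part0 (α₁ := α₁) (α₂ := α₂) (α₃ := α₃) hε hR h₁ h₂ h₃
  have p1 := part1 (α₁ := α₁) (α₂ := α₂) (α₃ := α₃) hε hR h₁ h₂ h₃ hC0 hC
  have p2 := part2 (α₁ := α₁) (α₂ := α₂) (α₃ := α₃) hε hR h₁ h₂ h₃
  have hsq := TT_sq (R := R) (α₁ := α₁) (α₂ := α₂) (α₃ := α₃) hε h₁ h₂ h₃
  have hnn : 0 ≤ ∫ x, ‖TT ε R α₁ α₂ α₃ f₁ f₂ f₃ x‖ ^ 2 := integral_nonneg fun _ => by positivity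
  have h1 : ∫ x, ‖TT ε R α₁ α₂ α₃ f₁ f₂ f₃ x‖ ^ 2
      = ‖∫ q, Ph ε R α₁ α₂ α₃ f₁ f₂ f₃ q‖ := by
    rw [← hsq, Complex.norm_real, Real.norm_of_nonneg hnn]
  rw [h1, e]
  refine (norm_add_le _ _).trans ?_
  have h2 := norm_add_le (∫ q, {q : ℝ × ℝ | ε / 2 < |q.2 - q.1| ∧ |q.2 - q.1| < R / 2}.indicator
          (Ph ε R α₁ α₂ α₃ f₁ f₂ f₃) q)
        (∫ q, {q : ℝ × ℝ | R / 2 ≤ |q.2 - q.1|}.indicator (Ph ε R α₁ α₂ α₃ f₁ f₂ f₃) q)
  linarith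

/-- the operator of the problem, as an integral over `ε < |t| < R` -/
theorem TT_eq (ε R : ℝ) (f₁ f₂ f₃ : ℝ → ℂ) (x : ℝ) :
    TT ε R 1 2 3 f₁ f₂ f₃ x = ∫ t in {t : ℝ | ε < |t| ∧ |t| < R},
      f₁ (x - t) * f₂ (x - 2 * t) * f₃ (x - 3 * t) / (t : ℂ) := by
  unfold TT ph FF uu
  rw [← integral_indicator (setA_meas ε R)]
  congr 1
  funext t
  by_cases ht : t ∈ {t : ℝ | ε < |t| ∧ |t| < R}
  · rw [indicator_of_mem ht, indicator_of_mem ht, one_mul, div_eq_mul_inv, mul_comm]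
  · rw [indicator_of_notMem ht, indicator_of_notMem ht, zero_mul]

theorem TT_meas {ε R α₁ α₂ α₃ : ℝ} {f₁ f₂ f₃ : ℝ → ℂ} (h₁ : Nice f₁) (h₂ : Nice f₂)
    (h₃ : Nice f₃) : Measurable (TT ε R α₁ α₂ α₃ f₁ f₂ f₃) :=
  ((ph_meas h₁.meas h₂.meas h₃.meas).stronglyMeasurable.integral_prod_right'
    (ν := volume)).measurable

/-- norm form -/
theorem main_norm (α₁ α₂ α₃ : ℝ) (h12 : α₁ ≠ α₂) (h23 : α₂ ≠ α₃) :
    ∃ C : ℝ, 0 ≤ C ∧ ∀ f₁ f₂ f₃ : ℝ → ℂ, Nice f₁ → Nice f₂ → Nice f₃ →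
      ∀ ε R : ℝ, 0 < ε → ε < R →
        eLpNorm (TT ε R α₁ α₂ α₃ f₁ f₂ f₃) 2 volume ≤
          ENNReal.ofReal (C * √(Real.log (R / ε))) * eLpNorm f₁ 6 volume *
            eLpNorm f₂ 6 volume * eLpNorm f₃ 6 volume := by
  obtain ⟨C, hC0, hC⟩ := main α₁ α₂ α₃ h12 h23
  refine ⟨√C, Real.sqrt_nonneg _, fun f₁ f₂ f₃ h₁ h₂ h₃ ε R hε hR => ?_⟩
  have hb := hC f₁ f₂ f₃ h₁ h₂ h₃ ε R hε hR
  have hL : 0 ≤ Real.log (R / ε) := Real.log_nonneg ((one_le_div hε).2 hR.le)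
  have n1 := (h₁.memLp (p := 6) (by norm_num) (by norm_num)).2.ne
  have n2 := (h₂.memLp (p := 6) (by norm_num) (by norm_num)).2.ne
  have n3 := (h₃.memLp (p := 6) (by norm_num) (by norm_num)).2.ne
  have hi := TT_sq_int (R := R) (α₁ := α₁) (α₂ := α₂) (α₃ := α₃) hε h₁ h₂ h₃
  have hm := TT_meas (ε := ε) (R := R) (α₁ := α₁) (α₂ := α₂) (α₃ := α₃) h₁ h₂ h₃
  have h2 : eLpNorm (TT ε R α₁ α₂ α₃ f₁ f₂ f₃) 2 volume
      = ENNReal.ofReal (√(∫ x, ‖TT ε R α₁ α₂ α₃ f₁ f₂ f₃ x‖ ^ 2)) := by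
    rw [eLpNorm_eq_lintegral_rpow_enorm_toReal (by norm_num) (by norm_num)]
    have e1 : (2 : ℝ≥0∞).toReal = 2 := by norm_num
    rw [e1, Real.sqrt_eq_rpow, ← ENNReal.ofReal_rpow_of_nonneg
      (integral_nonneg fun _ => by positivity) (by norm_num),
      ofReal_integral_eq_lintegral_ofReal hi (ae_of_all _ fun _ => by positivity)]
    congr 2
    funext x
    rw [ENNReal.rpow_two, ← ofReal_norm, ENNReal.ofReal_pow (norm_nonneg _)]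
  rw [h2]
  have h3 : √(∫ x, ‖TT ε R α₁ α₂ α₃ f₁ f₂ f₃ x‖ ^ 2) ≤ √C * √(Real.log (R / ε)) *
      (eLpNorm f₁ 6 volume).toReal * (eLpNorm f₂ 6 volume).toReal *
      (eLpNorm f₃ 6 volume).toReal := by
    refine (Real.sqrt_le_sqrt hb).trans (le_of_eq ?_)
    unfold PP
    rw [Real.sqrt_mul (by positivity), Real.sqrt_mul hC0, Real.sqrt_sq (by positivity)]
    ring
  refine (ENNReal.ofReal_le_ofReal h3).trans (le_of_eq ?_)
  rw [ENNReal.ofReal_mul (by positivity), ENNReal.ofReal_mul (by positivity),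
    ENNReal.ofReal_mul (by positivity), ENNReal.ofReal_toReal n1, ENNReal.ofReal_toReal n2,
    ENNReal.ofReal_toReal n3]

end Vale.Agent.P141.H97
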