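import Vale.Agent.P141.H97.Interp

/-!
# All exponents in the simplex
-/

namespace Vale.Agent.P141.H97

open MeasureTheory Set Filter Topology
open scoped ENNReal ComplexConjugate

theorem elp_NN {f : ℝ → ℂ} {p : ℝ≥0∞} (h : MemLp f p volume) (h1 : 1 ≤ p) (ht : p ≠ ∞) :
    eLpNorm f p volume = ENNReal.ofReal ((NN f p.toReal) ^ (p.toReal⁻¹)) :=
  h.eLpNorm_eq_integral_rpow_norm (by positivity) ht

/-- the slopes `0, 1, 2, 3` -/
def sl : Fin 4 → ℝ := ![0, 1, 2, 3]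

/-- the corner exponents -/
noncomputable def ee (j i : Fin 4) : ℝ := if i = j then 1 / 2 else 1 / 6

theorem ee_pos (j i : Fin 4) : 0 < ee j i := by unfold ee; split_ifs <;> norm_num

theorem ee_self (j : Fin 4) : ee j j = 1 / 2 := if_pos rfl

theorem ee_ne {j i : Fin 4} (h : i ≠ j) : ee j i = 1 / 6 := if_neg h

theorem inv2 : (1 : ℝ) / (1 / 2) = 2 := by norm_num

theorem inv6 : (1 : ℝ) / (1 / 6) = 6 := by norm_num

theorem conv_corner {X : ℂ} {K : ℝ} (hK : 0 ≤ K) {g₀ g₁ g₂ g₃ : ℝ → ℂ} (h₀ : Nice g₀)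
    (h₁ : Nice g₁) (h₂ : Nice g₂) (h₃ : Nice g₃)
    (h : ‖X‖ₑ ≤ ENNReal.ofReal K * eLpNorm g₀ 2 volume *
            eLpNorm g₁ 6 volume * eLpNorm g₂ 6 volume * eLpNorm g₃ 6 volume) :
    ‖X‖ ≤ K * ((NN g₀ 2) ^ ((1 : ℝ) / 2) * ((NN g₁ 6) ^ ((1 : ℝ) / 6) *
      ((NN g₂ 6) ^ ((1 : ℝ) / 6) * (NN g₃ 6) ^ ((1 : ℝ) / 6)))) := by
  have e2 : (2 : ℝ≥0∞).toReal = 2 := by norm_num
  have e6 : (6 : ℝ≥0∞).toReal = 6 := by norm_num
  rw [elp_NN (h₀.memLp (by norm_num) (by norm_num)) (by norm_num) (by norm_num),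
    elp_NN (h₁.memLp (by norm_num) (by norm_num)) (by norm_num) (by norm_num),
    elp_NN (h₂.memLp (by norm_num) (by norm_num)) (by norm_num) (by norm_num),
    elp_NN (h₃.memLp (by norm_num) (by norm_num)) (by norm_num) (by norm_num), e2, e6] at h
  have n0 := NN_nonneg g₀ 2
  have n1 := NN_nonneg g₁ 6
  have n2 := NN_nonneg g₂ 6
  have n3 := NN_nonneg g₃ 6
  rw [← ENNReal.ofReal_mul hK, ← ENNReal.ofReal_mul (by positivity),
    ← ENNReal.ofReal_mul (by positivity), ← ENNReal.ofReal_mul (by positivity),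
    ← ofReal_norm, ENNReal.ofReal_le_ofReal_iff (by positivity)] at h
  refine h.trans (le_of_eq ?_)
  simp only [one_div]
  ring

/-- the four corners -/
theorem corners : ∃ C : ℝ, 0 ≤ C ∧ ∀ ε R : ℝ, 0 < ε → ε < R → ∀ j : Fin 4,
    ∀ f : Fin 4 → ℝ → ℂ, (∀ i, Simp (f i)) →
      ‖QF ε R sl f‖ ≤ C * √(Real.log (R / ε)) * ∏ i, (NN (f i) (1 / ee j i)) ^ (ee j i) := by
  obtain ⟨C₀, hC₀, H₀⟩ := corner 1 2 3 (by norm_num) (by norm_num)
  obtain ⟨C₁, hC₁, H₁⟩ := corner (-1) 1 2 (by norm_num) (by norm_num)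
  obtain ⟨C₂, hC₂, H₂⟩ := corner (-1) (-2) 1 (by norm_num) (by norm_num)
  obtain ⟨C₃, hC₃, H₃⟩ := corner (-2) (-1) (-3) (by norm_num) (by norm_num)
  refine ⟨C₀ + C₁ + C₂ + C₃, by positivity, fun ε R hε hR j f hf => ?_⟩
  have hL := Real.sqrt_nonneg (Real.log (R / ε))
  have n := fun i => (hf i).nice
  have s0 : sl 0 = 0 := rfl
  have s1 : sl 1 = 1 := rfl
  have s2 : sl 2 = 2 := rfl
  have s3 : sl 3 = 3 := rfl
  have hQ : QF ε R sl f = Q4 ε R 0 1 2 3 (f 0) (f 1) (f 2) (f 3) := by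
    rw [QF_eq, s0, s1, s2, s3]
  have hN : ∀ i s, 0 ≤ NN (f i) s := fun i s => NN_nonneg _ _
  have fin : ∀ {K : ℝ}, 0 ≤ K → K ≤ C₀ + C₁ + C₂ + C₃ → ∀ {P Q : ℝ}, 0 ≤ P → P = Q →
      ‖QF ε R sl f‖ ≤ K * √(Real.log (R / ε)) * P →
      ‖QF ε R sl f‖ ≤ (C₀ + C₁ + C₂ + C₃) * √(Real.log (R / ε)) * Q := by
    intro K _ hK P Q hP hPQ h
    rw [← hPQ]
    exact h.trans (by gcongr)
  obtain rfl | rfl | rfl | rfl : j = 0 ∨ j = 1 ∨ j = 2 ∨ j = 3 := by fin_cases j <;> simp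
  · refine fin hC₀ (by linarith) ?_ ?_ ((hQ ▸ conv_corner (by positivity) (n 0) (n 1) (n 2) (n 3)
      (H₀ _ _ _ _ (n 0) (n 1) (n 2) (n 3) ε R hε hR)))
    · have := hN 0 2; have := hN 1 6; have := hN 2 6; have := hN 3 6; positivity
    · rw [Fin.prod_univ_four, ee_self, ee_ne (j := 0) (i := 1) (by decide),
        ee_ne (j := 0) (i := 2) (by decide), ee_ne (j := 0) (i := 3) (by decide), inv2, inv6]
      ring
  · have e : QF ε R sl f = Q4 ε R 0 (-1) 1 2 (f 1) (f 0) (f 2) (f 3) := by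
      rw [hQ, Q4_01, Q4_shift 1]; norm_num
    refine fin hC₁ (by linarith) ?_ ?_ ((e ▸ conv_corner (by positivity) (n 1) (n 0) (n 2) (n 3)
      (H₁ _ _ _ _ (n 1) (n 0) (n 2) (n 3) ε R hε hR)))
    · have := hN 1 2; have := hN 0 6; have := hN 2 6; have := hN 3 6; positivity
    · rw [Fin.prod_univ_four, ee_self, ee_ne (j := 1) (i := 0) (by decide),
        ee_ne (j := 1) (i := 2) (by decide), ee_ne (j := 1) (i := 3) (by decide), inv2, inv6]
      ring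
  · have e : QF ε R sl f = Q4 ε R 0 (-1) (-2) 1 (f 2) (f 1) (f 0) (f 3) := by
      rw [hQ, Q4_02, Q4_shift 2]; norm_num
    refine fin hC₂ (by linarith) ?_ ?_ ((e ▸ conv_corner (by positivity) (n 2) (n 1) (n 0) (n 3)
      (H₂ _ _ _ _ (n 2) (n 1) (n 0) (n 3) ε R hε hR)))
    · have := hN 2 2; have := hN 1 6; have := hN 0 6; have := hN 3 6; positivity
    · rw [Fin.prod_univ_four, ee_self, ee_ne (j := 2) (i := 0) (by decide),
        ee_ne (j := 2) (i := 1) (by decide), ee_ne (j := 2) (i := 3) (by decide), inv2, inv6]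
      ring
  · have e : QF ε R sl f = Q4 ε R 0 (-2) (-1) (-3) (f 3) (f 1) (f 2) (f 0) := by
      rw [hQ, Q4_03, Q4_shift 3]; norm_num
    refine fin hC₃ (by linarith) ?_ ?_ ((e ▸ conv_corner (by positivity) (n 3) (n 1) (n 2) (n 0)
      (H₃ _ _ _ _ (n 3) (n 1) (n 2) (n 0) ε R hε hR)))
    · have := hN 3 2; have := hN 1 6; have := hN 2 6; have := hN 0 6; positivity
    · rw [Fin.prod_univ_four, ee_self, ee_ne (j := 3) (i := 0) (by decide),
        ee_ne (j := 3) (i := 1) (by decide), ee_ne (j := 3) (i := 2) (by decide), inv2, inv6]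
      ring

/-- all exponents of the simplex -/
theorem simplex : ∃ C : ℝ, 0 ≤ C ∧ ∀ ε R : ℝ, 0 < ε → ε < R → ∀ d : Fin 4 → ℝ,
    (∀ i, 1 / 6 ≤ d i) → ∑ i, d i = 1 → ∀ f : Fin 4 → ℝ → ℂ, (∀ i, Simp (f i)) →
      ‖QF ε R sl f‖ ≤ C * √(Real.log (R / ε)) * ∏ i, (NN (f i) (1 / d i)) ^ (d i) := by
  obtain ⟨C, hC0, hC⟩ := corners
  refine ⟨C, hC0, fun ε R hε hR d hd hs => ?_⟩
  have hA : 0 ≤ C * √(Real.log (R / ε)) := by positivity
  set S : Set (Fin 4 → ℝ) := {a | (∀ i, 0 < a i) ∧ ∀ f : Fin 4 → ℝ → ℂ, (∀ i, Simp (f i)) →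
      ‖QF ε R sl f‖ ≤ C * √(Real.log (R / ε)) * ∏ i, (NN (f i) (1 / a i)) ^ (a i)} with hS
  have hconv : Convex ℝ S := by
    intro x hx y hy s t hs' ht hst
    refine ⟨fun i => ?_, ?_⟩
    · have h1 := hx.1 i
      have h2 := hy.1 i
      simp only [Pi.add_apply, Pi.smul_apply, smul_eq_mul]
      rcases eq_or_lt_of_le ht with h | h
      · have : s = 1 := by linarith
        rw [← h, this]; linarith
      · have h3 := mul_pos h h2
        have h4 := mul_nonneg hs' h1.le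
        linarith
    · exact interp hε hA hx.1 hy.1 ht (by linarith) hx.2 hy.2 (fun i => by
        simp only [Pi.add_apply, Pi.smul_apply, smul_eq_mul]
        rw [← hst]; ring)
  have hmem : ∀ j ∈ (Finset.univ : Finset (Fin 4)), ee j ∈ S := fun j _ =>
    ⟨ee_pos j, hC ε R hε hR j⟩
  have hw : ∑ j : Fin 4, 3 * (d j - 1 / 6) = 1 := by
    rw [Fin.sum_univ_four] at hs ⊢; linarith
  have key := hconv.sum_mem (t := Finset.univ) (w := fun j => 3 * (d j - 1 / 6))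
    (z := ee) (fun j _ => by have := hd j; linarith) hw hmem
  have e : ∑ j : Fin 4, (3 * (d j - 1 / 6)) • ee j = d := by
    rw [Fin.sum_univ_four] at hs ⊢
    funext i
    simp only [Pi.add_apply, Pi.smul_apply, smul_eq_mul, ee]
    fin_cases i <;> simp <;> linarith
  rw [e] at key
  exact key.2

end Vale.Agent.P141.H97
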